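import Mathlib

/-!
# P166: pressure, coupling matrix, assumptions on the eigenvalues
-/

namespace Vale.Agent.P166V

open MeasureTheory Filter Topology Matrix
open scoped BoundedContinuousFunction

/-- `P_N(β)` for the coupling matrix `J`: `N⁻¹ log (2⁻ᴺ ∑_σ exp (β/2 σᵀJσ))`, `σ ∈ {-1,1}ᴺ` -/
noncomputable def isingPressure {N : ℕ} (β : ℝ) (J : Matrix (Fin N) (Fin N) ℝ) : ℝ :=
  (N : ℝ)⁻¹ * Real.log (((2 : ℝ) ^ N)⁻¹ * ∑ σ : Fin N → ℤˣ,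
    Real.exp (β / 2 * ∑ i, ∑ j, ((σ i : ℤ) : ℝ) * J i j * ((σ j : ℤ) : ℝ)))

/-- the coupling matrix `J = Uᵀ Λ U` with `Λ = diag lam` and `U` orthogonal -/
def coupling {N : ℕ} (lam : Fin N → ℝ) (U : orthogonalGroup (Fin N) ℝ) :
    Matrix (Fin N) (Fin N) ℝ :=
  (U : Matrix (Fin N) (Fin N) ℝ)ᵀ * diagonal lam * (U : Matrix (Fin N) (Fin N) ℝ)

/-- the standing assumptions on the eigenvalues `lam N 0, …, lam N (N-1)` -/
structure Admissible (μ : Measure ℝ) (lam : ∀ N : ℕ, Fin N → ℝ) : Prop where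
  weak : ∀ g : ℝ →ᵇ ℝ,
    Tendsto (fun N : ℕ => (∑ i, g (lam N i)) / N) atTop (𝓝 (∫ x, g x ∂μ))
  largest : Tendsto (fun N : ℕ => ⨆ i, lam N i) atTop (𝓝 (sSup μ.support))
  smallest : Tendsto (fun N : ℕ => ⨅ i, lam N i) atTop (𝓝 (sInf μ.support))

end Vale.Agent.P166V
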