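import Mathlib

/-!
# P166V: the orthogonal group is compact, its left invariant probability measure is right invariant
-/

namespace Vale.Agent.P166V

open MeasureTheory Matrix

private theorem Haar_entry {N : ℕ} (A : Matrix (Fin N) (Fin N) ℝ) (hA : A * Aᵀ = 1)
    (i j : Fin N) : -1 ≤ A i j ∧ A i j ≤ 1 := by
  have h1 : ∑ k, A i k * A i k = 1 := by
    have h2 := congrFun (congrFun hA i) i
    rw [Matrix.mul_apply, Matrix.one_apply_eq] at h2
    exact h2
  have h3 : A i j * A i j ≤ 1 := by
    rw [← h1]
    exact Finset.single_le_sum (f := fun k => A i k * A i k)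
      (fun k _ => mul_self_nonneg (A i k)) (Finset.mem_univ j)
  constructor
  · nlinarith
  · nlinarith

theorem compact_O (N : ℕ) : CompactSpace (orthogonalGroup (Fin N) ℝ) := by
  have hset : ((orthogonalGroup (Fin N) ℝ : Submonoid (Matrix (Fin N) (Fin N) ℝ)) :
      Set (Matrix (Fin N) (Fin N) ℝ)) = {A | A * Aᵀ = 1} := by
    ext A
    exact mem_orthogonalGroup_iff (Fin N) ℝ
  have hclosed : IsClosed {A : Matrix (Fin N) (Fin N) ℝ | A * Aᵀ = 1} :=
    isClosed_eq (continuous_id.matrix_mul continuous_id.matrix_transpose) continuous_const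
  have hcomp : IsCompact {A : Matrix (Fin N) (Fin N) ℝ | A * Aᵀ = 1} := by
    have hbox : IsCompact (Set.pi Set.univ fun _ : Fin N =>
        Set.pi Set.univ fun _ : Fin N => Set.Icc (-1 : ℝ) 1) :=
      isCompact_univ_pi fun _ => isCompact_univ_pi fun _ => isCompact_Icc
    refine hbox.of_isClosed_subset hclosed ?_
    intro A hA i _ j _
    exact Haar_entry A hA i j
  rw [← hset] at hcomp
  exact isCompact_iff_compactSpace.1 hcomp

theorem topgrp_O (N : ℕ) : IsTopologicalGroup (orthogonalGroup (Fin N) ℝ) := by
  infer_instance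

theorem right_inv {N : ℕ} [MeasurableSpace (orthogonalGroup (Fin N) ℝ)]
    [BorelSpace (orthogonalGroup (Fin N) ℝ)] (ν : Measure (orthogonalGroup (Fin N) ℝ))
    [IsProbabilityMeasure ν] [ν.IsMulLeftInvariant] : ν.IsMulRightInvariant := by
  have hcs : CompactSpace (orthogonalGroup (Fin N) ℝ) := compact_O N
  have hmul : ∀ g : orthogonalGroup (Fin N) ℝ, Measurable fun x => x * g :=
    fun g => (continuous_mul_const g).measurable
  have hmul' : ∀ g : orthogonalGroup (Fin N) ℝ, Measurable fun x => g * x :=
    fun g => (continuous_const_mul g).measurable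
  have hHaar : ∀ μ : Measure (orthogonalGroup (Fin N) ℝ), IsProbabilityMeasure μ →
      μ.IsMulLeftInvariant → μ.IsHaarMeasure := by
    intro μ h1 h2
    refine Measure.isHaarMeasure_of_isCompact_nonempty_interior μ Set.univ isCompact_univ ?_ ?_ ?_
    · rw [interior_univ]
      exact Set.univ_nonempty
    · rw [measure_univ]
      exact one_ne_zero
    · rw [measure_univ]
      exact ENNReal.one_ne_top
  refine ⟨fun g => ?_⟩
  have hp : IsProbabilityMeasure (Measure.map (fun x => x * g) ν) :=
    Measure.isProbabilityMeasure_map (hmul g).aemeasurable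
  have hl : (Measure.map (fun x => x * g) ν).IsMulLeftInvariant := by
    refine ⟨fun h => ?_⟩
    rw [Measure.map_map (hmul' h) (hmul g)]
    have h3 : (fun x => h * x) ∘ (fun x => x * g) = (fun x => x * g) ∘ fun x => h * x := by
      funext x
      simp only [Function.comp_apply, mul_assoc]
    rw [h3, ← Measure.map_map (hmul g) (hmul' h), map_mul_left_eq_self]
  have hH1 := hHaar ν inferInstance inferInstance
  have hH2 := hHaar _ hp hl
  exact Measure.isHaarMeasure_eq_of_isProbabilityMeasure _ _

end Vale.Agent.P166V
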