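import Mathlib

/-!
# P166V: a chain of subgroups of the orthogonal group, and reflections
-/

namespace Vale.Agent.P166V

open MeasureTheory Matrix

/-- the matrix `1 - 2 n nᵀ` -/
noncomputable def refl {N : ℕ} (n : Fin N → ℝ) : Matrix (Fin N) (Fin N) ℝ :=
  1 - (2 : ℝ) • vecMulVec n n

/-- the identity and the reflections in unit vectors -/
def RR (N : ℕ) : Set (orthogonalGroup (Fin N) ℝ) :=
  {h | h = 1 ∨ ∃ n : Fin N → ℝ, n ⬝ᵥ n = 1 ∧ (h : Matrix (Fin N) (Fin N) ℝ) = refl n}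

private theorem star_mul_coe {N : ℕ} (V : orthogonalGroup (Fin N) ℝ) :
    (V : Matrix (Fin N) (Fin N) ℝ)ᵀ * (V : Matrix (Fin N) (Fin N) ℝ) = 1 :=
  (mem_orthogonalGroup_iff' (Fin N) ℝ).1 V.2

private theorem coe_inv' {N : ℕ} (V : orthogonalGroup (Fin N) ℝ) :
    ((V⁻¹ : orthogonalGroup (Fin N) ℝ) : Matrix (Fin N) (Fin N) ℝ) =
      (V : Matrix (Fin N) (Fin N) ℝ)ᵀ := by
  have h : ((V⁻¹ : orthogonalGroup (Fin N) ℝ) : Matrix (Fin N) (Fin N) ℝ) =
      star (V : Matrix (Fin N) (Fin N) ℝ) := rfl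
  rw [h, star_eq_conjTranspose, conjTranspose_eq_transpose_of_trivial]

private theorem coe_mul' {N : ℕ} (V W : orthogonalGroup (Fin N) ℝ) :
    ((V * W : orthogonalGroup (Fin N) ℝ) : Matrix (Fin N) (Fin N) ℝ) =
      (V : Matrix (Fin N) (Fin N) ℝ) * (W : Matrix (Fin N) (Fin N) ℝ) := rfl

/-- orthogonal matrices fixing the first `k` basis vectors -/
def KK (N k : ℕ) : Subgroup (orthogonalGroup (Fin N) ℝ) where
  carrier := {V | ∀ j : Fin N, (j : ℕ) < k →
    (V : Matrix (Fin N) (Fin N) ℝ) *ᵥ Pi.single j 1 = Pi.single j 1}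
  mul_mem' := by
    intro a b ha hb j hj
    rw [coe_mul', ← mulVec_mulVec, hb j hj, ha j hj]
  one_mem' := by
    intro j _
    exact one_mulVec _
  inv_mem' := by
    intro a ha j hj
    have h1 := ha j hj
    rw [coe_inv']
    conv_lhs => rw [← h1]
    rw [mulVec_mulVec, star_mul_coe, one_mulVec]

theorem KK_zero (N : ℕ) : KK N 0 = ⊤ := by
  rw [eq_top_iff]
  intro V _ j hj
  exact absurd hj (Nat.not_lt_zero _)

theorem KK_top (N : ℕ) : KK N N = ⊥ := by
  rw [eq_bot_iff]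
  intro V hV
  rw [Subgroup.mem_bot]
  apply Subtype.ext
  ext i j
  have h1 : (V : Matrix (Fin N) (Fin N) ℝ) *ᵥ Pi.single j 1 = Pi.single j 1 := hV j j.2
  have h2 := congrFun h1 i
  rw [mulVec_single_one] at h2
  rw [show (V : Matrix (Fin N) (Fin N) ℝ) i j = (V : Matrix (Fin N) (Fin N) ℝ).col j i from rfl, h2]
  show (Pi.single j 1 : Fin N → ℝ) i = (1 : Matrix (Fin N) (Fin N) ℝ) i j
  rw [Matrix.one_apply, Pi.single_apply]

private theorem refl_transpose {N : ℕ} (n : Fin N → ℝ) : (refl n)ᵀ = refl n := by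
  unfold refl
  rw [transpose_sub, transpose_one, transpose_smul, transpose_vecMulVec]

private theorem refl_mul {N : ℕ} (n : Fin N → ℝ) (hn : n ⬝ᵥ n = 1) : refl n * refl n = 1 := by
  unfold refl
  have h : vecMulVec n n * vecMulVec n n = vecMulVec n n := by
    rw [vecMulVec_mul_vecMulVec, hn]
    simp
  rw [mul_sub, sub_mul, sub_mul, one_mul, mul_one, one_mul, smul_mul_assoc, mul_smul_comm, h]
  module

private theorem refl_mulVec {N : ℕ} (n x : Fin N → ℝ) :
    refl n *ᵥ x = x - (2 * (n ⬝ᵥ x)) • n := by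
  unfold refl
  rw [sub_mulVec, one_mulVec, smul_mulVec, vecMulVec_mulVec]
  ext i
  simp
  ring

private theorem dot_pres {N : ℕ} (V : orthogonalGroup (Fin N) ℝ) (x y : Fin N → ℝ) :
    ((V : Matrix (Fin N) (Fin N) ℝ) *ᵥ x) ⬝ᵥ ((V : Matrix (Fin N) (Fin N) ℝ) *ᵥ y) = x ⬝ᵥ y := by
  rw [dotProduct_mulVec, ← mulVec_transpose, mulVec_mulVec, star_mul_coe, one_mulVec]

/-- the reflection exchanging the unit vectors `e_k` and `V e_k` (or the identity) works -/
theorem KK_step {N k : ℕ} (hk : k < N) (V : orthogonalGroup (Fin N) ℝ) (hV : V ∈ KK N k) :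
    ∃ h ∈ RR N, h⁻¹ * V ∈ KK N (k + 1) := by
  have hVj : ∀ j : Fin N, (j : ℕ) < k →
    (V : Matrix (Fin N) (Fin N) ℝ) *ᵥ Pi.single j 1 = Pi.single j 1 := hV
  set e : Fin N → ℝ := Pi.single ⟨k, hk⟩ 1 with he
  set f : Fin N → ℝ := (V : Matrix (Fin N) (Fin N) ℝ) *ᵥ e with hf
  by_cases hv : e - f = 0
  · refine ⟨1, Or.inl rfl, ?_⟩
    rw [inv_one, one_mul]
    intro j hj
    rcases Nat.lt_succ_iff_lt_or_eq.1 hj with h | h
    · exact hVj j h
    · have : j = ⟨k, hk⟩ := Fin.ext h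
      rw [this]
      exact (sub_eq_zero.1 hv).symm
  · set v := e - f with hvdef
    have hee : e ⬝ᵥ e = 1 := by rw [he]; simp
    have hff : f ⬝ᵥ f = 1 := by rw [hf, dot_pres, hee]
    have hc0 : 0 < v ⬝ᵥ v := by
      have h1 : v ⬝ᵥ v ≠ 0 := fun h => hv (dotProduct_self_eq_zero.1 h)
      have h2 : 0 ≤ v ⬝ᵥ v := by
        unfold dotProduct
        exact Finset.sum_nonneg fun i _ => mul_self_nonneg _
      exact lt_of_le_of_ne h2 (Ne.symm h1)
    have hcc : v ⬝ᵥ v = 2 - 2 * (e ⬝ᵥ f) := by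
      rw [hvdef, sub_dotProduct, dotProduct_sub, dotProduct_sub, hee, hff, dotProduct_comm f e]
      ring
    set s := Real.sqrt (v ⬝ᵥ v) with hs
    have hs0 : 0 < s := Real.sqrt_pos.2 hc0
    have hss : s * s = v ⬝ᵥ v := Real.mul_self_sqrt hc0.le
    set n : Fin N → ℝ := s⁻¹ • v with hn
    have hnn : n ⬝ᵥ n = 1 := by
      rw [hn, smul_dotProduct, dotProduct_smul, smul_eq_mul, smul_eq_mul, ← hss]
      field_simp
    have hmem : refl n ∈ orthogonalGroup (Fin N) ℝ := by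
      rw [mem_orthogonalGroup_iff, refl_transpose]
      exact refl_mul n hnn
    refine ⟨⟨refl n, hmem⟩, Or.inr ⟨n, hnn, rfl⟩, ?_⟩
    intro j hj
    rw [coe_mul', coe_inv', ← mulVec_mulVec]
    show (refl n)ᵀ *ᵥ _ = _
    rw [refl_transpose]
    rcases Nat.lt_succ_iff_lt_or_eq.1 hj with h | h
    · rw [hVj j h, refl_mulVec]
      have h1 : n ⬝ᵥ (Pi.single j 1 : Fin N → ℝ) = 0 := by
        have h2 : e ⬝ᵥ (Pi.single j 1 : Fin N → ℝ) = 0 := by
          rw [he, dotProduct_single_one, Pi.single_apply, if_neg]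
          intro h3
          rw [h3] at h
          exact lt_irrefl _ h
        have h3 : f ⬝ᵥ (Pi.single j 1 : Fin N → ℝ) = 0 := by
          rw [← hVj j h, hf, dot_pres, h2]
        rw [hn, smul_dotProduct, hvdef, sub_dotProduct, h2, h3]
        simp
      rw [h1]
      simp
    · have h4 : j = ⟨k, hk⟩ := Fin.ext h
      rw [h4]
      show refl n *ᵥ f = e
      rw [refl_mulVec]
      have h5 : n ⬝ᵥ f = - s / 2 := by
        rw [hn, smul_dotProduct, hvdef, sub_dotProduct, hff, smul_eq_mul]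
        have h6 : e ⬝ᵥ f - 1 = - (s * s) / 2 := by rw [hss, hcc]; ring
        rw [h6]
        field_simp
      rw [h5, hn, smul_smul]
      have h7 : 2 * (-s / 2) * s⁻¹ = -1 := by
        field_simp
      rw [h7, hvdef]
      simp

theorem RR_conj {N : ℕ} (W h : orthogonalGroup (Fin N) ℝ) (hh : h ∈ RR N) :
    W⁻¹ * h * W ∈ RR N := by
  rcases hh with rfl | ⟨n, hn, hr⟩
  · left
    simp
  · right
    refine ⟨(W : Matrix (Fin N) (Fin N) ℝ)ᵀ *ᵥ n, ?_, ?_⟩
    · have h1 := dot_pres W⁻¹ n n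
      rw [coe_inv'] at h1
      rw [h1, hn]
    · rw [coe_mul', coe_mul', coe_inv', hr]
      unfold refl
      rw [mul_sub, sub_mul, mul_one, star_mul_coe, mul_smul_comm, smul_mul_assoc, mul_vecMulVec,
        vecMulVec_mul, ← mulVec_transpose]

end Vale.Agent.P166V
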