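import Vale.Agent.Lib.P166V.Gav
import Vale.Agent.Lib.P166V.Haar
import Vale.Agent.Lib.P166V.Ortho

/-!
# P166V: change of the pressure under a reflection, Jensen
-/

namespace Vale.Agent.P166V

open MeasureTheory Matrix Vale.Agent.P166U

private theorem refl_mulVec {N : ℕ} (n σ : Fin N → ℝ) :
    refl n *ᵥ σ = σ - (2 * (n ⬝ᵥ σ)) • n := by
  unfold refl
  rw [sub_mulVec, one_mulVec, smul_mulVec, vecMulVec_mulVec]
  funext i
  simp only [Pi.sub_apply, Pi.smul_apply, smul_eq_mul, MulOpposite.smul_eq_mul_unop,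
    MulOpposite.unop_op]
  ring

private theorem refl_sq {N : ℕ} (n : Fin N → ℝ) (hn : n ⬝ᵥ n = 1) : refl n * refl n = 1 := by
  have h1 : vecMulVec n n * vecMulVec n n = vecMulVec n n := by
    rw [vecMulVec_mul_vecMulVec, hn, one_smul]
  have h2 : refl n * refl n = 1 - (4 : ℝ) • vecMulVec n n +
      (4 : ℝ) • (vecMulVec n n * vecMulVec n n) := by
    unfold refl
    rw [sub_mul, mul_sub, mul_sub, one_mul, one_mul, mul_one, Matrix.smul_mul, Matrix.mul_smul,
      smul_smul]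
    module
  rw [h2, h1, sub_add_cancel]

/-- the energy change -/
private theorem en_diff {N : ℕ} (β : ℝ) (lam : Fin N → ℝ) (U : Matrix (Fin N) (Fin N) ℝ)
    (n σ : Fin N → ℝ) :
    en β lam U σ - en β lam (U * refl n) σ =
      2 * β * ((n ⬝ᵥ σ) * (n ⬝ᵥ Js lam U σ) -
        (n ⬝ᵥ σ) ^ 2 * ∑ i, lam i * ((U *ᵥ n) i) ^ 2) := by
  have h1 : n ⬝ᵥ Js lam U σ = ∑ i, lam i * ((U *ᵥ n) i * (U *ᵥ σ) i) := by
    unfold Js
    rw [← mulVec_mulVec, ← mulVec_mulVec, dotProduct_mulVec, vecMul_transpose, dotProduct]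
    refine Finset.sum_congr rfl fun i _ => ?_
    rw [mulVec_diagonal]
    ring
  have h2 : (U * refl n) *ᵥ σ = U *ᵥ σ - (2 * (n ⬝ᵥ σ)) • (U *ᵥ n) := by
    rw [← mulVec_mulVec, refl_mulVec, mulVec_sub, mulVec_smul]
  unfold en
  rw [h1, h2, ← mul_sub, ← Finset.sum_sub_distrib]
  simp only [Pi.sub_apply, Pi.smul_apply, smul_eq_mul]
  generalize n ⬝ᵥ σ = s
  rw [Finset.mul_sum, Finset.mul_sum, Finset.mul_sum, ← Finset.sum_sub_distrib, Finset.mul_sum]
  refine Finset.sum_congr rfl fun i _ => ?_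
  ring

/-- pointwise algebra: `en U σ - en (U h) σ = 2β((n·σ)(n·Jσ) - (n·σ)²(n·Jn))`, `h = 1 - 2nnᵀ` -/
theorem en_sq {N : ℕ} (β : ℝ) (lam : Fin N → ℝ) {L : ℝ} (hL : ∀ i, |lam i| ≤ L)
    {U : Matrix (Fin N) (Fin N) ℝ} (hU : U ∈ orthogonalGroup (Fin N) ℝ) (n σ : Fin N → ℝ)
    (hn : n ⬝ᵥ n = 1) :
    (en β lam U σ - en β lam (U * refl n) σ) ^ 2 ≤
      8 * β ^ 2 * ((n ⬝ᵥ σ) ^ 2 * (n ⬝ᵥ Js lam U σ) ^ 2 + L ^ 2 * (n ⬝ᵥ σ) ^ 4) := by
  have h1 : ∑ i, ((U *ᵥ n) i) ^ 2 = 1 := by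
    have h1 := quad (fun _ => (1 : ℝ)) U n
    have h2 : Uᵀ * U = 1 := by
      have := (mem_orthogonalGroup_iff' (Fin N) ℝ).1 hU
      simpa [star_eq_conjTranspose] using this
    simp only [diagonal_one, mul_one, one_mul, h2, one_mulVec] at h1
    rw [← h1, hn]
  have h2 : |∑ i, lam i * ((U *ᵥ n) i) ^ 2| ≤ L := by
    calc |∑ i, lam i * ((U *ᵥ n) i) ^ 2| ≤ ∑ i, |lam i * ((U *ᵥ n) i) ^ 2| :=
          Finset.abs_sum_le_sum_abs _ _
      _ ≤ ∑ i, L * ((U *ᵥ n) i) ^ 2 := by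
          refine Finset.sum_le_sum fun i _ => ?_
          rw [abs_mul, abs_of_nonneg (sq_nonneg ((U *ᵥ n) i))]
          exact mul_le_mul_of_nonneg_right (hL i) (sq_nonneg _)
      _ = L := by rw [← Finset.mul_sum, h1, mul_one]
  have h3 : (∑ i, lam i * ((U *ᵥ n) i) ^ 2) ^ 2 ≤ L ^ 2 := by
    rw [← sq_abs]
    exact pow_le_pow_left₀ (abs_nonneg _) h2 2
  rw [en_diff]
  generalize (∑ i, lam i * ((U *ᵥ n) i) ^ 2) = q at h3
  generalize n ⬝ᵥ σ = s
  generalize n ⬝ᵥ Js lam U σ = t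
  have h4 : 0 ≤ β ^ 2 * (s * t + s ^ 2 * q) ^ 2 := by positivity
  have h5 : 0 ≤ β ^ 2 * s ^ 4 * (L ^ 2 - q ^ 2) :=
    mul_nonneg (by positivity) (by linarith)
  nlinarith [h4, h5]

/-- Cauchy-Schwarz for Gibbs averages -/
private theorem gav_sq {N : ℕ} (β : ℝ) (lam : Fin N → ℝ) (U : Matrix (Fin N) (Fin N) ℝ)
    (φ : (Fin N → ℝ) → ℝ) : gav β lam U φ ^ 2 ≤ gav β lam U (fun σ => φ σ ^ 2) := by
  unfold gav
  have hZ := Z_pos β lam U
  rw [div_pow, div_le_div_iff₀ (by positivity) hZ]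
  have h1 : (∑ σ ∈ cube N, Real.exp (en β lam U σ) * φ σ) ^ 2 ≤
      (∑ σ ∈ cube N, Real.exp (en β lam U σ)) *
        ∑ σ ∈ cube N, Real.exp (en β lam U σ) * φ σ ^ 2 := by
    refine Finset.sum_sq_le_sum_mul_sum_of_sq_le_mul _ (fun σ _ => (Real.exp_pos _).le)
      (fun σ _ => mul_nonneg (Real.exp_pos _).le (sq_nonneg _)) fun σ _ => le_of_eq ?_
    ring
  calc (∑ σ ∈ cube N, Real.exp (en β lam U σ) * φ σ) ^ 2 * Z β lam U ≤
      ((∑ σ ∈ cube N, Real.exp (en β lam U σ)) *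
        ∑ σ ∈ cube N, Real.exp (en β lam U σ) * φ σ ^ 2) * Z β lam U :=
        mul_le_mul_of_nonneg_right h1 hZ.le
    _ = (∑ σ ∈ cube N, Real.exp (en β lam U σ) * φ σ ^ 2) * Z β lam U ^ 2 := by
        unfold Z
        ring

private theorem gav_nonneg {N : ℕ} (β : ℝ) (lam : Fin N → ℝ) (U : Matrix (Fin N) (Fin N) ℝ)
    (φ : (Fin N → ℝ) → ℝ) (hφ : ∀ σ, 0 ≤ φ σ) : 0 ≤ gav β lam U φ := by
  unfold gav
  exact div_nonneg (Finset.sum_nonneg fun σ _ => mul_nonneg (Real.exp_pos _).le (hφ σ))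
    (Z_pos β lam U).le

private theorem pr_le {N : ℕ} (β : ℝ) (lam : Fin N → ℝ) (U V : Matrix (Fin N) (Fin N) ℝ) :
    pressure β lam U - pressure β lam V ≤
      1 / N * gav β lam U (fun σ => en β lam U σ - en β lam V σ) := by
  have h := jensen (cube N) (cube_nonempty N) (en β lam U) (en β lam V)
  have h1 : pressure β lam U - pressure β lam V =
      1 / N * (Real.log (Z β lam U) - Real.log (Z β lam V)) := by
    rw [pressure_eq, pressure_eq]
    ring
  rw [h1]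
  exact mul_le_mul_of_nonneg_left h (by positivity)

private theorem sq_bd {x a b : ℝ} (h1 : x ≤ a) (h2 : -x ≤ b) : x ^ 2 ≤ a ^ 2 + b ^ 2 := by
  rcases le_total 0 x with h | h
  · nlinarith [sq_nonneg b]
  · nlinarith [sq_nonneg a]

/-- the difference of the pressures at `U` and `V` -/
private theorem pr_sq {N : ℕ} (β : ℝ) (lam : Fin N → ℝ) (U V : Matrix (Fin N) (Fin N) ℝ) :
    (pressure β lam V - pressure β lam U) ^ 2 ≤
      1 / N ^ 2 * (gav β lam U (fun σ => (en β lam U σ - en β lam V σ) ^ 2) +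
        gav β lam V (fun σ => (en β lam V σ - en β lam U σ) ^ 2)) := by
  have h1 := pr_le β lam U V
  have h2 := pr_le β lam V U
  have h3 := sq_bd h2 (by linarith : -(pressure β lam V - pressure β lam U) ≤
    1 / N * gav β lam U (fun σ => en β lam U σ - en β lam V σ))
  have h4 := gav_sq β lam U (fun σ => en β lam U σ - en β lam V σ)
  have h5 := gav_sq β lam V (fun σ => en β lam V σ - en β lam U σ)
  refine h3.trans ?_
  rw [mul_pow, mul_pow, ← mul_add, _root_.one_div_pow]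
  refine mul_le_mul_of_nonneg_left ?_ (by positivity)
  linarith

/-- Jensen: `N(P(U) - P(Uh)) ≤ <en U - en (Uh)>_U` (lemma `jensen` of P166U.A), the same with `U h`
in place of `U` (`h h = 1`), squares, and right invariance of `ν` -/
theorem jen {N : ℕ} [MeasurableSpace (orthogonalGroup (Fin N) ℝ)]
    [BorelSpace (orthogonalGroup (Fin N) ℝ)] (ν : Measure (orthogonalGroup (Fin N) ℝ))
    [IsProbabilityMeasure ν] [ν.IsMulRightInvariant] {β : ℝ} (hβ : 0 ≤ β) (lam : Fin N → ℝ)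
    (h : orthogonalGroup (Fin N) ℝ) (n : Fin N → ℝ) (hn : n ⬝ᵥ n = 1)
    (hh : (h : Matrix (Fin N) (Fin N) ℝ) = refl n) :
    ∫ U : orthogonalGroup (Fin N) ℝ, (pressure β lam ((U * h : orthogonalGroup (Fin N) ℝ)) -
      pressure β lam U) ^ 2 ∂ν ≤ 2 / N ^ 2 * ∫ U : orthogonalGroup (Fin N) ℝ,
        gav β lam U (fun σ => (en β lam U σ - en β lam ((U : Matrix (Fin N) (Fin N) ℝ) * refl n) σ) ^ 2)
          ∂ν := by
  have := compact_O N
  have := topgrp_O N
  set Q : orthogonalGroup (Fin N) ℝ → ℝ := fun U => gav β lam U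
    (fun σ => (en β lam U σ - en β lam ((U : Matrix (Fin N) (Fin N) ℝ) * refl n) σ) ^ 2) with hQ
  have hQi : Integrable Q ν := gav_int ν β lam
    (fun U σ => (en β lam U σ - en β lam (U * refl n) σ) ^ 2) fun σ =>
      ((continuous_en β lam σ).sub ((continuous_en β lam σ).comp
        (continuous_id.matrix_mul continuous_const))).pow 2
  have hQi' : Integrable (fun U => Q (U * h)) ν := hQi.comp_mul_right h
  have hpt : ∀ U : orthogonalGroup (Fin N) ℝ,
      (pressure β lam ((U * h : orthogonalGroup (Fin N) ℝ)) - pressure β lam U) ^ 2 ≤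
        1 / N ^ 2 * (Q U + Q (U * h)) := by
    intro U
    have e1 : ((U * h : orthogonalGroup (Fin N) ℝ) : Matrix (Fin N) (Fin N) ℝ) =
        (U : Matrix (Fin N) (Fin N) ℝ) * refl n := by
      rw [← hh]
      rfl
    have e2 : (U : Matrix (Fin N) (Fin N) ℝ) * refl n * refl n = U := by
      rw [mul_assoc, refl_sq n hn, mul_one]
    have h1 := pr_sq β lam (U : Matrix (Fin N) (Fin N) ℝ)
      ((U : Matrix (Fin N) (Fin N) ℝ) * refl n)
    rw [hQ]
    simp only [e1, e2]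
    exact h1
  have hPc : Continuous fun U : orthogonalGroup (Fin N) ℝ =>
      pressure β lam (U : Matrix (Fin N) (Fin N) ℝ) :=
    (continuous_pressure β lam).comp continuous_subtype_val
  have hLc : Continuous fun U : orthogonalGroup (Fin N) ℝ =>
      (pressure β lam ((U * h : orthogonalGroup (Fin N) ℝ)) - pressure β lam U) ^ 2 :=
    ((hPc.comp (continuous_mul_const h)).sub hPc).pow 2
  have hLi : Integrable (fun U : orthogonalGroup (Fin N) ℝ =>
      (pressure β lam ((U * h : orthogonalGroup (Fin N) ℝ)) - pressure β lam U) ^ 2) ν :=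
    hLc.integrable_of_hasCompactSupport (HasCompactSupport.of_compactSpace _)
  refine (integral_mono hLi ((hQi.add hQi').const_mul _) hpt).trans (le_of_eq ?_)
  rw [integral_const_mul]
  have h6 : ∫ U, (Q U + Q (U * h)) ∂ν = 2 * ∫ U, Q U ∂ν := by
    rw [integral_add hQi hQi', integral_mul_right_eq_self Q h]
    ring
  change 1 / (N : ℝ) ^ 2 * ∫ U, (Q U + Q (U * h)) ∂ν = _
  rw [h6]
  ring

end Vale.Agent.P166V
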