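import Vale.Agent.Lib.P166U.A

/-!
# P166V: a fourth moment inequality for random signs
-/

namespace Vale.Agent.P166V

open Vale.Agent.P166U

private theorem Khin_succ {N : ℕ} (F : (Fin (N + 1) → ℝ) → ℝ) :
    ∑ ε ∈ cube (N + 1), F ε =
      ∑ ε ∈ cube N, (F (Fin.cons (-1) ε) + F (Fin.cons 1 ε)) := by
  have h1 : ∑ ε ∈ cube (N + 1), F ε =
      ∑ p ∈ ({-1, 1} : Finset ℝ) ×ˢ cube N, F (Fin.cons p.1 p.2) := by
    symm
    refine Finset.sum_equiv (Fin.consEquiv fun _ : Fin (N + 1) => ℝ) ?_ ?_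
    · rintro ⟨x, ε⟩
      rw [Finset.mem_product]
      unfold cube
      rw [Fintype.mem_piFinset, Fintype.mem_piFinset, Fin.forall_fin_succ]
      rfl
    · rintro ⟨x, ε⟩ _
      rfl
  rw [h1, Finset.sum_product_right]
  refine Finset.sum_congr rfl fun ε _ => ?_
  exact Finset.sum_pair (by norm_num)

private theorem Khin_card (N : ℕ) : ∑ _ε ∈ cube N, (1 : ℝ) = 2 ^ N := by
  induction N with
  | zero => simp [cube]
  | succ N ih =>
    rw [Khin_succ fun _ => (1 : ℝ), Finset.sum_add_distrib, ih, pow_succ]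
    ring

private theorem Khin_mixed (N : ℕ) : ∀ a c : Fin N → ℝ,
    ∑ ε ∈ cube N, (∑ i, ε i * a i) * (∑ i, ε i * c i) = 2 ^ N * ∑ i, a i * c i := by
  induction N with
  | zero => intro a c; simp
  | succ N ih =>
    intro a c
    rw [Khin_succ fun ε => (∑ i, ε i * a i) * (∑ i, ε i * c i)]
    simp only [Fin.sum_univ_succ, Fin.cons_zero, Fin.cons_succ]
    have h : ∀ ε : Fin N → ℝ, (-1 * a 0 + ∑ i, ε i * a i.succ) *
        (-1 * c 0 + ∑ i, ε i * c i.succ) +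
        (1 * a 0 + ∑ i, ε i * a i.succ) * (1 * c 0 + ∑ i, ε i * c i.succ) =
        2 * ((∑ i, ε i * a i.succ) * (∑ i, ε i * c i.succ)) + 2 * (a 0 * c 0) * 1 := by
      intro ε
      ring
    rw [Finset.sum_congr rfl fun ε _ => h ε, Finset.sum_add_distrib, ← Finset.mul_sum,
      ← Finset.mul_sum, ih (fun i => a i.succ) (fun i => c i.succ), Khin_card, pow_succ]
    ring

/-- `E (ε·a)² (ε·c)² ≤ 3 |a|² |c|²` for random signs -/
theorem khin {N : ℕ} (a c : Fin N → ℝ) :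
    ∑ ε ∈ cube N, (∑ i, ε i * a i) ^ 2 * (∑ i, ε i * c i) ^ 2 ≤
      2 ^ N * (3 * ((∑ i, a i ^ 2) * ∑ i, c i ^ 2)) := by
  induction N with
  | zero => simp
  | succ N ih =>
    rw [Khin_succ fun ε => (∑ i, ε i * a i) ^ 2 * (∑ i, ε i * c i) ^ 2]
    simp only [Fin.sum_univ_succ, Fin.cons_zero, Fin.cons_succ]
    have h : ∀ ε : Fin N → ℝ, (-1 * a 0 + ∑ i, ε i * a i.succ) ^ 2 *
        (-1 * c 0 + ∑ i, ε i * c i.succ) ^ 2 +
        (1 * a 0 + ∑ i, ε i * a i.succ) ^ 2 * (1 * c 0 + ∑ i, ε i * c i.succ) ^ 2 =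
        2 * ((∑ i, ε i * a i.succ) ^ 2 * (∑ i, ε i * c i.succ) ^ 2) +
        2 * a 0 ^ 2 * ((∑ i, ε i * c i.succ) * (∑ i, ε i * c i.succ)) +
        2 * c 0 ^ 2 * ((∑ i, ε i * a i.succ) * (∑ i, ε i * a i.succ)) +
        8 * (a 0 * c 0) * ((∑ i, ε i * a i.succ) * (∑ i, ε i * c i.succ)) +
        2 * (a 0 ^ 2 * c 0 ^ 2) * 1 := by
      intro ε
      ring
    rw [Finset.sum_congr rfl fun ε _ => h ε, Finset.sum_add_distrib, Finset.sum_add_distrib,
      Finset.sum_add_distrib, Finset.sum_add_distrib, ← Finset.mul_sum, ← Finset.mul_sum,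
      ← Finset.mul_sum, ← Finset.mul_sum, ← Finset.mul_sum,
      Khin_mixed N (fun i => c i.succ) (fun i => c i.succ),
      Khin_mixed N (fun i => a i.succ) (fun i => a i.succ),
      Khin_mixed N (fun i => a i.succ) (fun i => c i.succ), Khin_card]
    have h1 := ih (fun i => a i.succ) (fun i => c i.succ)
    have h2 : 0 ≤ ∑ i : Fin N, (a 0 * c i.succ - c 0 * a i.succ) ^ 2 :=
      Finset.sum_nonneg fun i _ => sq_nonneg _
    have h3 : ∑ i : Fin N, (a 0 * c i.succ - c 0 * a i.succ) ^ 2 =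
        a 0 ^ 2 * (∑ i : Fin N, c i.succ ^ 2) - 2 * (a 0 * c 0) * (∑ i : Fin N, a i.succ * c i.succ) +
          c 0 ^ 2 * (∑ i : Fin N, a i.succ ^ 2) := by
      rw [Finset.mul_sum, Finset.mul_sum, Finset.mul_sum, ← Finset.sum_sub_distrib,
        ← Finset.sum_add_distrib]
      exact Finset.sum_congr rfl fun i _ => by ring
    have h4 : ∀ b : Fin N → ℝ, ∑ i : Fin N, b i * b i = ∑ i : Fin N, b i ^ 2 := fun b =>
      Finset.sum_congr rfl fun i _ => (pow_two _).symm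
    rw [h4 fun i => c i.succ, h4 fun i => a i.succ]
    rw [h3] at h2
    have hpow : (0 : ℝ) < 2 ^ N := by positivity
    have h5 : 0 ≤ a 0 ^ 2 * c 0 ^ 2 := by positivity
    set A := ∑ i : Fin N, a i.succ ^ 2
    set C := ∑ i : Fin N, c i.succ ^ 2
    set D := ∑ i : Fin N, a i.succ * c i.succ
    set S := ∑ ε ∈ cube N, (∑ i, ε i * a i.succ) ^ 2 * (∑ i, ε i * c i.succ) ^ 2
    have h6 := mul_nonneg hpow.le h2
    have h7 := mul_nonneg hpow.le h5
    have h8 : (2 : ℝ) ^ (N + 1) = 2 * 2 ^ N := by ring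
    rw [h8]
    linarith [h1, h6, h7]

end Vale.Agent.P166V
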