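import Vale.Agent.Lib.P166V.Gav
import Vale.Agent.Lib.P166V.Khin
import Vale.Agent.Lib.P166V.Haar

/-!
# P166V: fourth moments under the averaged Gibbs measure

Replace `U` by `U D`, `D = diagonal ε`, `ε ∈ cube N` (right invariance of `ν`):
`gav β lam (U D) φ = gav β lam U (fun τ => φ (D τ))`, `Js lam (U D) σ = D (Js lam U (D σ))`;
average over `ε`, use `khin`; exchangeability (`D` = permutation matrix `pm p`) for the second one.
-/

namespace Vale.Agent.P166V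

open MeasureTheory Matrix Vale.Agent.P166U

private theorem EstB_sum {N : ℕ} {Q : Matrix (Fin N) (Fin N) ℝ} (hQ2 : Q * Q = 1)
    (hc : ∀ σ ∈ cube N, Q *ᵥ σ ∈ cube N) (g : (Fin N → ℝ) → ℝ) :
    ∑ σ ∈ cube N, g (Q *ᵥ σ) = ∑ σ ∈ cube N, g σ := by
  have hinv : ∀ σ : Fin N → ℝ, Q *ᵥ (Q *ᵥ σ) = σ := fun σ => by
    rw [mulVec_mulVec, hQ2, one_mulVec]
  refine Finset.sum_nbij' (fun σ => Q *ᵥ σ) (fun σ => Q *ᵥ σ) hc hc
    (fun σ _ => hinv σ) (fun σ _ => hinv σ) (fun σ _ => rfl)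

private theorem EstB_en {N : ℕ} (β : ℝ) (lam : Fin N → ℝ) (U Q : Matrix (Fin N) (Fin N) ℝ)
    (σ : Fin N → ℝ) : en β lam (U * Q) σ = en β lam U (Q *ᵥ σ) := by
  unfold en
  rw [mulVec_mulVec]

private theorem EstB_gav {N : ℕ} {Q : Matrix (Fin N) (Fin N) ℝ} (hQ2 : Q * Q = 1)
    (hc : ∀ σ ∈ cube N, Q *ᵥ σ ∈ cube N) (β : ℝ) (lam : Fin N → ℝ)
    (U : Matrix (Fin N) (Fin N) ℝ) (φ : (Fin N → ℝ) → ℝ) :
    gav β lam (U * Q) φ = gav β lam U (fun τ => φ (Q *ᵥ τ)) := by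
  have hinv : ∀ σ : Fin N → ℝ, Q *ᵥ (Q *ᵥ σ) = σ := fun σ => by
    rw [mulVec_mulVec, hQ2, one_mulVec]
  unfold gav Z
  have h1 : ∑ σ ∈ cube N, Real.exp (en β lam (U * Q) σ) * φ σ =
      ∑ σ ∈ cube N, Real.exp (en β lam U σ) * φ (Q *ᵥ σ) := by
    rw [← EstB_sum hQ2 hc (fun σ => Real.exp (en β lam (U * Q) σ) * φ σ)]
    refine Finset.sum_congr rfl (fun σ _ => ?_)
    rw [EstB_en, hinv]
  have h2 : ∑ σ ∈ cube N, Real.exp (en β lam (U * Q) σ) =
      ∑ σ ∈ cube N, Real.exp (en β lam U σ) := by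
    rw [← EstB_sum hQ2 hc (fun σ => Real.exp (en β lam (U * Q) σ))]
    refine Finset.sum_congr rfl (fun σ _ => ?_)
    rw [EstB_en, hinv]
  rw [h1, h2]

private theorem EstB_Js {N : ℕ} {Q : Matrix (Fin N) (Fin N) ℝ} (hQ2 : Q * Q = 1)
    (hQt : Qᵀ = Q) (lam : Fin N → ℝ) (U : Matrix (Fin N) (Fin N) ℝ) (τ : Fin N → ℝ) :
    Js lam (U * Q) (Q *ᵥ τ) = Q *ᵥ Js lam U τ := by
  unfold Js
  rw [mulVec_mulVec, mulVec_mulVec, transpose_mul, hQt]
  have h : Q * Uᵀ * diagonal lam * (U * Q) * Q = Q * (Uᵀ * diagonal lam * U) * (Q * Q) := by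
    simp only [Matrix.mul_assoc]
  rw [h, hQ2, Matrix.mul_one]

private theorem EstB_mono {N : ℕ} (β : ℝ) (lam : Fin N → ℝ) (U : Matrix (Fin N) (Fin N) ℝ)
    {φ ψ : (Fin N → ℝ) → ℝ} (h : ∀ σ ∈ cube N, φ σ ≤ ψ σ) :
    gav β lam U φ ≤ gav β lam U ψ := by
  unfold gav
  refine div_le_div_of_nonneg_right ?_ (Z_pos β lam U).le
  exact Finset.sum_le_sum (fun σ hσ =>
    mul_le_mul_of_nonneg_left (h σ hσ) (Real.exp_pos _).le)

private theorem EstB_const {N : ℕ} (β : ℝ) (lam : Fin N → ℝ) (U : Matrix (Fin N) (Fin N) ℝ)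
    (c : ℝ) : gav β lam U (fun _ => c) = c := by
  unfold gav
  rw [← Finset.sum_mul]
  have h := (Z_pos β lam U).ne'
  unfold Z at h ⊢
  rw [mul_comm, mul_div_assoc, div_self h, mul_one]

private theorem EstB_gsum {N : ℕ} (β : ℝ) (lam : Fin N → ℝ) (U : Matrix (Fin N) (Fin N) ℝ)
    {ι : Type} (s : Finset ι) (φ : ι → (Fin N → ℝ) → ℝ) :
    ∑ i ∈ s, gav β lam U (φ i) = gav β lam U (fun σ => ∑ i ∈ s, φ i σ) := by
  unfold gav
  rw [← Finset.sum_div, Finset.sum_comm]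
  congr 1
  refine Finset.sum_congr rfl (fun σ _ => ?_)
  rw [Finset.mul_sum]

private theorem EstB_smul {N : ℕ} (β : ℝ) (lam : Fin N → ℝ) (U : Matrix (Fin N) (Fin N) ℝ)
    (c : ℝ) (φ : (Fin N → ℝ) → ℝ) :
    gav β lam U (fun σ => c * φ σ) = c * gav β lam U φ := by
  unfold gav
  rw [← mul_div_assoc, Finset.mul_sum]
  congr 1
  refine Finset.sum_congr rfl (fun σ _ => ?_)
  ring

private theorem EstB_card (N : ℕ) : ((cube N).card : ℝ) = 2 ^ N := by
  unfold cube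
  rw [Fintype.card_piFinset]
  simp only [Finset.prod_const, Finset.card_univ, Fintype.card_fin]
  rw [Finset.card_pair (by norm_num)]
  push_cast
  rfl

private theorem EstB_orth {N : ℕ} {Q : Matrix (Fin N) (Fin N) ℝ} (hQ2 : Q * Q = 1)
    (hQt : Qᵀ = Q) : Q ∈ orthogonalGroup (Fin N) ℝ := by
  rw [mem_orthogonalGroup_iff, hQt, hQ2]

private theorem EstB_int {N : ℕ} [MeasurableSpace (orthogonalGroup (Fin N) ℝ)]
    [BorelSpace (orthogonalGroup (Fin N) ℝ)] (ν : Measure (orthogonalGroup (Fin N) ℝ))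
    [IsProbabilityMeasure ν] [ν.IsMulRightInvariant] {Q : Matrix (Fin N) (Fin N) ℝ}
    (hQ2 : Q * Q = 1) (hQt : Qᵀ = Q) (hc : ∀ σ ∈ cube N, Q *ᵥ σ ∈ cube N) (β : ℝ)
    (lam : Fin N → ℝ) (F : Matrix (Fin N) (Fin N) ℝ → (Fin N → ℝ) → ℝ) :
    ∫ U : orthogonalGroup (Fin N) ℝ, gav β lam U (F U) ∂ν =
      ∫ U : orthogonalGroup (Fin N) ℝ, gav β lam U
        (fun τ => F ((U : Matrix (Fin N) (Fin N) ℝ) * Q) (Q *ᵥ τ)) ∂ν := by
  have := topgrp_O N
  rw [← integral_mul_right_eq_self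
    (fun U : orthogonalGroup (Fin N) ℝ => gav β lam U (F U))
    (⟨Q, EstB_orth hQ2 hQt⟩ : orthogonalGroup (Fin N) ℝ)]
  refine integral_congr_ae (Filter.Eventually.of_forall (fun U => ?_))
  exact EstB_gav hQ2 hc β lam U (F ((U : Matrix (Fin N) (Fin N) ℝ) * Q))

private theorem EstB_diag {N : ℕ} {ε : Fin N → ℝ} (hε : ε ∈ cube N) :
    (diagonal ε : Matrix (Fin N) (Fin N) ℝ) * diagonal ε = 1 ∧
    (diagonal ε : Matrix (Fin N) (Fin N) ℝ)ᵀ = diagonal ε ∧
    ∀ σ ∈ cube N, diagonal ε *ᵥ σ ∈ cube N := by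
  refine ⟨?_, diagonal_transpose _, ?_⟩
  · rw [diagonal_mul_diagonal, ← diagonal_one]
    congr 1
    funext i
    rw [← pow_two, cube_sq hε]
  · intro σ hσ
    unfold cube at *
    rw [Fintype.mem_piFinset] at *
    intro i
    rw [mulVec_diagonal]
    have h1 := hε i
    have h2 := hσ i
    simp only [Finset.mem_insert, Finset.mem_singleton] at h1 h2 ⊢
    rcases h1 with h1 | h1 <;> rcases h2 with h2 | h2 <;> rw [h1, h2] <;> norm_num

private theorem EstB_swap {N : ℕ} (a b : Fin N) :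
    (pm (Equiv.swap a b) : Matrix (Fin N) (Fin N) ℝ) * pm (Equiv.swap a b) = 1 ∧
    (pm (Equiv.swap a b) : Matrix (Fin N) (Fin N) ℝ)ᵀ = pm (Equiv.swap a b) ∧
    ∀ σ ∈ cube N, pm (Equiv.swap a b) *ᵥ σ ∈ cube N := by
  have hT : (pm (Equiv.swap a b) : Matrix (Fin N) (Fin N) ℝ)ᵀ = pm (Equiv.swap a b) := by
    ext i j
    simp only [pm, transpose_apply, of_apply]
    by_cases h : (Equiv.swap a b) j = i
    · rw [if_pos h, if_pos]
      rw [← h, Equiv.swap_apply_self]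
    · rw [if_neg h, if_neg]
      intro h2
      apply h
      rw [← h2, Equiv.swap_apply_self]
  refine ⟨?_, hT, ?_⟩
  · have h := pm_mem (Equiv.swap a b)
    rw [mem_orthogonalGroup_iff, hT] at h
    exact h
  · intro σ hσ
    unfold cube at *
    rw [Fintype.mem_piFinset] at *
    intro i
    rw [pm_mulVec]
    exact hσ _

private theorem EstB_dot {N : ℕ} (n ε x : Fin N → ℝ) :
    n ⬝ᵥ (diagonal ε *ᵥ x) = ∑ i, ε i * (n i * x i) := by
  rw [dotProduct]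
  refine Finset.sum_congr rfl (fun i _ => ?_)
  rw [mulVec_diagonal]
  ring

private theorem EstB_unit {N : ℕ} {n τ : Fin N → ℝ} (hn : n ⬝ᵥ n = 1) (hτ : τ ∈ cube N) :
    ∑ i, (n i * τ i) ^ 2 = 1 := by
  rw [← hn, dotProduct]
  refine Finset.sum_congr rfl (fun i _ => ?_)
  rw [mul_pow, cube_sq hτ]
  ring

private theorem EstB_cont_Js {N : ℕ} (lam : Fin N → ℝ) (σ : Fin N → ℝ) (i : Fin N) :
    Continuous (fun U : Matrix (Fin N) (Fin N) ℝ => Js lam U σ i) := by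
  unfold Js
  simp only [mulVec, dotProduct, mul_apply, transpose_apply]
  fun_prop

/-- the sign average -/
private theorem EstB_avg {N : ℕ} [MeasurableSpace (orthogonalGroup (Fin N) ℝ)]
    [BorelSpace (orthogonalGroup (Fin N) ℝ)] (ν : Measure (orthogonalGroup (Fin N) ℝ))
    [IsProbabilityMeasure ν] [ν.IsMulRightInvariant] (β : ℝ) (lam : Fin N → ℝ)
    (F : Matrix (Fin N) (Fin N) ℝ → (Fin N → ℝ) → ℝ) (hF : ∀ σ, Continuous fun U => F U σ)
    (G : Matrix (Fin N) (Fin N) ℝ → (Fin N → ℝ) → ℝ) (hG : ∀ σ, Continuous fun U => G U σ)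
    (h : ∀ U, ∀ τ ∈ cube N, ∑ ε ∈ cube N, F (U * diagonal ε) (diagonal ε *ᵥ τ) ≤
      2 ^ N * G U τ) :
    ∫ U : orthogonalGroup (Fin N) ℝ, gav β lam U (F U) ∂ν ≤
      ∫ U : orthogonalGroup (Fin N) ℝ, gav β lam U (G U) ∂ν := by
  have := compact_O N
  have hint : ∀ ε : Fin N → ℝ, Integrable (fun U : orthogonalGroup (Fin N) ℝ =>
      gav β lam U (fun τ => F ((U : Matrix (Fin N) (Fin N) ℝ) * diagonal ε)
        (diagonal ε *ᵥ τ))) ν := by
    intro ε
    refine gav_int ν β lam (fun U τ => F (U * diagonal ε) (diagonal ε *ᵥ τ)) (fun σ => ?_)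
    exact (hF _).comp (continuous_id.matrix_mul continuous_const)
  have h1 : (2 : ℝ) ^ N * ∫ U : orthogonalGroup (Fin N) ℝ, gav β lam U (F U) ∂ν =
      ∫ U : orthogonalGroup (Fin N) ℝ, ∑ ε ∈ cube N, gav β lam U
        (fun τ => F ((U : Matrix (Fin N) (Fin N) ℝ) * diagonal ε) (diagonal ε *ᵥ τ)) ∂ν := by
    rw [integral_finsetSum _ (fun ε _ => hint ε), ← EstB_card, ← nsmul_eq_mul]
    symm
    apply Finset.sum_eq_card_nsmul
    intro ε hε
    obtain ⟨a1, a2, a3⟩ := EstB_diag hε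
    exact (EstB_int ν a1 a2 a3 β lam F).symm
  have h2 : ∫ U : orthogonalGroup (Fin N) ℝ, ∑ ε ∈ cube N, gav β lam U
        (fun τ => F ((U : Matrix (Fin N) (Fin N) ℝ) * diagonal ε) (diagonal ε *ᵥ τ)) ∂ν ≤
      ∫ U : orthogonalGroup (Fin N) ℝ, 2 ^ N * gav β lam U (G U) ∂ν := by
    refine integral_mono (integrable_finsetSum _ (fun ε _ => hint ε))
      ((gav_int ν β lam G hG).const_mul _) (fun U => ?_)
    simp only
    rw [EstB_gsum, ← EstB_smul]
    exact EstB_mono β lam U (h U)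
  rw [integral_const_mul] at h2
  rw [← h1] at h2
  exact le_of_mul_le_mul_left h2 (by positivity)

theorem mom4 {N : ℕ} [MeasurableSpace (orthogonalGroup (Fin N) ℝ)]
    [BorelSpace (orthogonalGroup (Fin N) ℝ)] (ν : Measure (orthogonalGroup (Fin N) ℝ))
    [IsProbabilityMeasure ν] [ν.IsMulRightInvariant] (β : ℝ) (lam : Fin N → ℝ)
    (n : Fin N → ℝ) (hn : n ⬝ᵥ n = 1) :
    ∫ U : orthogonalGroup (Fin N) ℝ, gav β lam U (fun σ => (n ⬝ᵥ σ) ^ 4) ∂ν ≤ 3 := by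
  have h := EstB_avg ν β lam (fun _ σ => (n ⬝ᵥ σ) ^ 4) (fun _ => continuous_const)
    (fun _ _ => 3) (fun _ => continuous_const) (fun U τ hτ => by
      have h1 := khin (fun i => n i * τ i) (fun i => n i * τ i)
      rw [EstB_unit hn hτ] at h1
      simp only [EstB_dot]
      refine le_trans (le_of_eq ?_) (h1.trans (le_of_eq (by ring)))
      refine Finset.sum_congr rfl (fun ε _ => ?_)
      ring)
  simp only [EstB_const] at h
  simpa using h

/-- the second moment of one coordinate of `J σ` -/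
private theorem EstB_coord {N : ℕ} [MeasurableSpace (orthogonalGroup (Fin N) ℝ)]
    [BorelSpace (orthogonalGroup (Fin N) ℝ)] (ν : Measure (orthogonalGroup (Fin N) ℝ))
    [IsProbabilityMeasure ν] [ν.IsMulRightInvariant] (β : ℝ) (lam : Fin N → ℝ)
    {L : ℝ} (hL : ∀ i, |lam i| ≤ L) (i : Fin N) :
    ∫ U : orthogonalGroup (Fin N) ℝ, gav β lam U (fun σ => (Js lam U σ i) ^ 2) ∂ν ≤ L ^ 2 := by
  have := compact_O N
  have hint : ∀ j : Fin N, Integrable (fun U : orthogonalGroup (Fin N) ℝ =>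
      gav β lam U (fun σ => (Js lam U σ j) ^ 2)) ν := fun j =>
    gav_int ν β lam (fun U σ => (Js lam U σ j) ^ 2) (fun σ => (EstB_cont_Js lam σ j).pow 2)
  have heq : ∀ j : Fin N,
      ∫ U : orthogonalGroup (Fin N) ℝ, gav β lam U (fun σ => (Js lam U σ j) ^ 2) ∂ν =
      ∫ U : orthogonalGroup (Fin N) ℝ, gav β lam U (fun σ => (Js lam U σ i) ^ 2) ∂ν := by
    intro j
    obtain ⟨a1, a2, a3⟩ := EstB_swap j i
    rw [EstB_int ν a1 a2 a3 β lam (fun U σ => (Js lam U σ j) ^ 2)]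
    refine integral_congr_ae (Filter.Eventually.of_forall (fun U => ?_))
    simp only [EstB_Js a1 a2, pm_mulVec, Equiv.swap_apply_left]
  have hsum : (N : ℝ) *
      ∫ U : orthogonalGroup (Fin N) ℝ, gav β lam U (fun σ => (Js lam U σ i) ^ 2) ∂ν ≤
      N * L ^ 2 := by
    have h1 : (N : ℝ) *
        ∫ U : orthogonalGroup (Fin N) ℝ, gav β lam U (fun σ => (Js lam U σ i) ^ 2) ∂ν =
        ∫ U : orthogonalGroup (Fin N) ℝ, ∑ j, gav β lam U
          (fun σ => (Js lam U σ j) ^ 2) ∂ν := by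
      rw [integral_finsetSum _ (fun j _ => hint j)]
      simp only [heq]
      simp
    rw [h1]
    have h2 : ∫ U : orthogonalGroup (Fin N) ℝ, ∑ j, gav β lam U
          (fun σ => (Js lam U σ j) ^ 2) ∂ν ≤
        ∫ _U : orthogonalGroup (Fin N) ℝ, (N : ℝ) * L ^ 2 ∂ν := by
      refine integral_mono (integrable_finsetSum _ (fun j _ => hint j))
        (integrable_const _) (fun U => ?_)
      simp only
      rw [EstB_gsum, ← EstB_const β lam (U : Matrix (Fin N) (Fin N) ℝ) ((N : ℝ) * L ^ 2)]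
      refine EstB_mono β lam U (fun σ hσ => ?_)
      have hU1 : (U : Matrix (Fin N) (Fin N) ℝ) * (U : Matrix (Fin N) (Fin N) ℝ)ᵀ = 1 := by
        have h3 := (mem_orthogonalGroup_iff (Fin N) ℝ).1 U.2
        exact h3
      have h4 : ∑ j, (Js lam U σ j) ^ 2 =
          ∑ j, (lam j * ((U : Matrix (Fin N) (Fin N) ℝ) *ᵥ σ) j) ^ 2 := by
        have h5 : Js lam U σ = (U : Matrix (Fin N) (Fin N) ℝ)ᵀ *ᵥ
            (fun j => lam j * ((U : Matrix (Fin N) (Fin N) ℝ) *ᵥ σ) j) := by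
          unfold Js
          rw [← mulVec_mulVec, ← mulVec_mulVec]
          congr 1
          funext j
          rw [mulVec_diagonal]
        have h6 : ∀ v : Fin N → ℝ, ∑ j, (((U : Matrix (Fin N) (Fin N) ℝ)ᵀ *ᵥ v) j) ^ 2 =
            ∑ j, (v j) ^ 2 := by
          intro v
          have h7 : ((U : Matrix (Fin N) (Fin N) ℝ)ᵀ *ᵥ v) ⬝ᵥ
              ((U : Matrix (Fin N) (Fin N) ℝ)ᵀ *ᵥ v) = v ⬝ᵥ v := by
            rw [dotProduct_mulVec, vecMul_transpose, mulVec_mulVec, hU1, one_mulVec]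
          simpa [dotProduct, pow_two] using h7
        rw [h5, h6]
      rw [h4]
      have h8 : ∑ j, (lam j * ((U : Matrix (Fin N) (Fin N) ℝ) *ᵥ σ) j) ^ 2 ≤
          ∑ j, L ^ 2 * (((U : Matrix (Fin N) (Fin N) ℝ) *ᵥ σ) j) ^ 2 := by
        refine Finset.sum_le_sum (fun j _ => ?_)
        rw [mul_pow]
        refine mul_le_mul_of_nonneg_right ?_ (sq_nonneg _)
        exact sq_le_sq' (by linarith [abs_le.1 (hL j)]) (by linarith [abs_le.1 (hL j)])
      refine h8.trans (le_of_eq ?_)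
      rw [← Finset.mul_sum, norm_rot U.2 hσ]
      ring
    refine h2.trans (le_of_eq ?_)
    simp
  have hN : (0 : ℝ) < N := by
    have : 0 < N := lt_of_le_of_lt (Nat.zero_le _) i.2
    exact_mod_cast this
  exact le_of_mul_le_mul_left hsum hN

theorem mom22 {N : ℕ} [MeasurableSpace (orthogonalGroup (Fin N) ℝ)]
    [BorelSpace (orthogonalGroup (Fin N) ℝ)] (ν : Measure (orthogonalGroup (Fin N) ℝ))
    [IsProbabilityMeasure ν] [ν.IsMulRightInvariant] (β : ℝ) (lam : Fin N → ℝ)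
    {L : ℝ} (hL : ∀ i, |lam i| ≤ L) (n : Fin N → ℝ) (hn : n ⬝ᵥ n = 1) :
    ∫ U : orthogonalGroup (Fin N) ℝ,
      gav β lam U (fun σ => (n ⬝ᵥ σ) ^ 2 * (n ⬝ᵥ Js lam U σ) ^ 2) ∂ν ≤ 3 * L ^ 2 := by
  have := compact_O N
  have hcdot : ∀ σ : Fin N → ℝ, Continuous (fun U : Matrix (Fin N) (Fin N) ℝ =>
      n ⬝ᵥ Js lam U σ) := fun σ => by
    simp only [dotProduct]
    exact continuous_finsetSum _ (fun i _ => continuous_const.mul (EstB_cont_Js lam σ i))
  have h := EstB_avg ν β lam (fun U σ => (n ⬝ᵥ σ) ^ 2 * (n ⬝ᵥ Js lam U σ) ^ 2)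
    (fun σ => continuous_const.mul ((hcdot σ).pow 2))
    (fun U τ => 3 * ∑ i, (n i * Js lam U τ i) ^ 2)
    (fun σ => continuous_const.mul (continuous_finsetSum _ (fun i _ =>
      (continuous_const.mul (EstB_cont_Js lam σ i)).pow 2)))
    (fun U τ hτ => by
      have h1 := khin (fun i => n i * τ i) (fun i => n i * Js lam U τ i)
      rw [EstB_unit hn hτ, one_mul] at h1
      refine le_trans (le_of_eq ?_) h1
      refine Finset.sum_congr rfl (fun ε hε => ?_)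
      obtain ⟨a1, a2, _⟩ := EstB_diag hε
      rw [EstB_Js a1 a2, EstB_dot, EstB_dot])
  refine h.trans ?_
  have h2 : ∀ U : orthogonalGroup (Fin N) ℝ,
      gav β lam U (fun τ => 3 * ∑ i, (n i * Js lam U τ i) ^ 2) =
      3 * ∑ i, n i ^ 2 * gav β lam U (fun τ => (Js lam U τ i) ^ 2) := by
    intro U
    rw [EstB_smul, ← EstB_gsum]
    congr 1
    refine Finset.sum_congr rfl (fun i _ => ?_)
    rw [← EstB_smul]
    simp only [mul_pow]
  simp only [h2]
  rw [integral_const_mul, integral_finsetSum _ (fun i _ => ?_)]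
  · simp only [integral_const_mul]
    have h3 : ∑ i, n i ^ 2 * ∫ U : orthogonalGroup (Fin N) ℝ,
        gav β lam U (fun τ => (Js lam U τ i) ^ 2) ∂ν ≤ ∑ i, n i ^ 2 * L ^ 2 :=
      Finset.sum_le_sum (fun i _ => mul_le_mul_of_nonneg_left (EstB_coord ν β lam hL i)
        (sq_nonneg _))
    have h4 : ∑ i, n i ^ 2 * L ^ 2 = L ^ 2 := by
      rw [← Finset.sum_mul]
      have h5 : ∑ i, n i ^ 2 = 1 := by
        rw [← hn, dotProduct]
        exact Finset.sum_congr rfl (fun i _ => by ring)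
      rw [h5, one_mul]
    linarith
  · exact (gav_int ν β lam (fun U σ => (Js lam U σ i) ^ 2)
      (fun σ => (EstB_cont_Js lam σ i).pow 2)).const_mul _

end Vale.Agent.P166V
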