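import Vale.Agent.Lib.P166U.B

/-!
# P166V: Gibbs averages
-/

namespace Vale.Agent.P166V

open MeasureTheory Matrix Vale.Agent.P166U

/-- Gibbs average of `φ` -/
noncomputable def gav {N : ℕ} (β : ℝ) (lam : Fin N → ℝ) (U : Matrix (Fin N) (Fin N) ℝ)
    (φ : (Fin N → ℝ) → ℝ) : ℝ :=
  (∑ σ ∈ cube N, Real.exp (en β lam U σ) * φ σ) / Z β lam U

/-- the vector `J σ` -/
noncomputable def Js {N : ℕ} (lam : Fin N → ℝ) (U : Matrix (Fin N) (Fin N) ℝ)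
    (σ : Fin N → ℝ) : Fin N → ℝ := (Uᵀ * diagonal lam * U) *ᵥ σ

end Vale.Agent.P166V
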