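import Vale.Agent.Lib.P166V.Hilb

/-!
# P166V: variance bound on a compact group through a chain of subgroups
-/

namespace Vale.Agent.P166V

open MeasureTheory

section

variable {G : Type*} [Group G] [TopologicalSpace G] [IsTopologicalGroup G] [CompactSpace G]
    [SecondCountableTopology G] [MeasurableSpace G] [BorelSpace G] (ν : Measure G)
    [IsProbabilityMeasure ν] [ν.IsMulLeftInvariant] [ν.IsMulRightInvariant]

/-- composition with right translation -/
private noncomputable def L2L (V : G) : Lp ℝ 2 ν →ₗᵢ[ℝ] Lp ℝ 2 ν :=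
  Lp.compMeasurePreservingₗᵢ ℝ (fun U => U * V) (measurePreserving_mul_right ν V)

omit [CompactSpace G] [SecondCountableTopology G] [IsProbabilityMeasure ν]
  [ν.IsMulLeftInvariant] in
private theorem L2L_coe (V : G) (φ : Lp ℝ 2 ν) :
    (L2L ν V φ : G → ℝ) =ᵐ[ν] fun U => φ (U * V) :=
  Lp.coeFn_compMeasurePreserving φ (measurePreserving_mul_right ν V)

omit [CompactSpace G] [SecondCountableTopology G] [IsProbabilityMeasure ν]
  [ν.IsMulLeftInvariant] in
private theorem L2L_mul (V W : G) (φ : Lp ℝ 2 ν) : L2L ν V (L2L ν W φ) = L2L ν (V * W) φ := by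
  refine Lp.ext ?_
  refine (L2L_coe ν V _).trans ?_
  have h1 : (fun U => (L2L ν W φ : G → ℝ) (U * V)) =ᵐ[ν] fun U => φ (U * V * W) :=
    (measurePreserving_mul_right ν V).quasiMeasurePreserving.ae_eq_comp (L2L_coe ν W φ)
  refine h1.trans ?_
  have h2 : (fun U => φ (U * V * W)) = fun U => φ (U * (V * W)) := by
    funext U
    rw [mul_assoc]
  rw [h2]
  exact (L2L_coe ν (V * W) φ).symm

omit [CompactSpace G] [SecondCountableTopology G] [IsProbabilityMeasure ν]
  [ν.IsMulLeftInvariant] in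
private theorem L2L_one (φ : Lp ℝ 2 ν) : L2L ν 1 φ = φ := by
  refine Lp.ext ?_
  refine (L2L_coe ν 1 _).trans (Filter.Eventually.of_forall fun U => ?_)
  change φ (U * 1) = φ U
  rw [mul_one]

/-- the right regular representation -/
private noncomputable def L2R : G →* (Lp ℝ 2 ν ≃ₗᵢ[ℝ] Lp ℝ 2 ν) where
  toFun V :=
    { toLinearEquiv := LinearEquiv.ofLinearMap (L2L ν V).toLinearMap (L2L ν V⁻¹).toLinearMap
        (by
          ext1 φ
          change L2L ν V (L2L ν V⁻¹ φ) = φ
          rw [L2L_mul, mul_inv_cancel, L2L_one])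
        (by
          ext1 φ
          change L2L ν V⁻¹ (L2L ν V φ) = φ
          rw [L2L_mul, inv_mul_cancel, L2L_one])
      norm_map' := fun φ => (L2L ν V).norm_map φ }
  map_one' := by
    ext1 φ
    exact L2L_one ν φ
  map_mul' V W := by
    ext1 φ
    exact (L2L_mul ν V W φ).symm

omit [CompactSpace G] [SecondCountableTopology G] [IsProbabilityMeasure ν]
  [ν.IsMulLeftInvariant] in
private theorem L2R_apply (V : G) (φ : Lp ℝ 2 ν) : L2R ν V φ = L2L ν V φ := rfl

omit [TopologicalSpace G] [IsTopologicalGroup G] [CompactSpace G] [SecondCountableTopology G]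
  [BorelSpace G] [IsProbabilityMeasure ν] [ν.IsMulLeftInvariant] [ν.IsMulRightInvariant]
  [Group G] in
private theorem L2_inner (φ ψ : Lp ℝ 2 ν) : inner ℝ φ ψ = ∫ U, φ U * ψ U ∂ν := by
  rw [L2.inner_def]
  refine integral_congr_ae (Filter.Eventually.of_forall fun U => ?_)
  change inner ℝ (φ U) (ψ U) = φ U * ψ U
  rw [RCLike.inner_apply', starRingEnd_apply, star_trivial]

end

theorem var_le {G : Type*} [Group G] [TopologicalSpace G] [IsTopologicalGroup G] [CompactSpace G]
    [SecondCountableTopology G] [MeasurableSpace G] [BorelSpace G] (ν : Measure G)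
    [IsProbabilityMeasure ν] [ν.IsMulLeftInvariant] [ν.IsMulRightInvariant]
    (K : ℕ → Subgroup G) (n : ℕ)
    (hK0 : K 0 = ⊤) (hKn : K n = ⊥) (T : Set G) (hT : ∀ W : G, ∀ h ∈ T, W⁻¹ * h * W ∈ T)
    (hst : ∀ k < n, ∀ V ∈ K k, ∃ h ∈ T, h⁻¹ * V ∈ K (k + 1))
    (f : G → ℝ) (hf : Continuous f) {s : ℝ} (hs : ∀ h ∈ T, ∫ U, (f (U * h) - f U) ^ 2 ∂ν ≤ s) :
    ∫ U, (f U - ∫ U', f U' ∂ν) ^ 2 ∂ν ≤ n * s / 2 := by
  obtain ⟨C, hC⟩ : ∃ C, ∀ U, ‖f U‖ ≤ C := by
    obtain ⟨C, hC⟩ := isCompact_univ.exists_bound_of_continuousOn hf.continuousOn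
    exact ⟨C, fun U => hC U (Set.mem_univ U)⟩
  have hmem : MemLp f 2 ν := MemLp.of_bound hf.aestronglyMeasurable C
    (Filter.Eventually.of_forall hC)
  have hfi : Integrable f ν := Integrable.of_bound hf.aestronglyMeasurable C
    (Filter.Eventually.of_forall hC)
  have hf2 : Integrable (fun U => f U ^ 2) ν := hmem.integrable_sq
  obtain ⟨F, hF⟩ : ∃ F : Lp ℝ 2 ν, F = hmem.toLp f := ⟨_, rfl⟩
  have hFc : (F : G → ℝ) =ᵐ[ν] f := by
    rw [hF]
    exact hmem.coeFn_toLp
  have hRF : ∀ V, (L2R ν V F : G → ℝ) =ᵐ[ν] fun U => f (U * V) := by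
    intro V
    rw [L2R_apply]
    exact (L2L_coe ν V F).trans
      ((measurePreserving_mul_right ν V).quasiMeasurePreserving.ae_eq_comp hFc)
  have hnorm : ∀ h ∈ T, ‖L2R ν h F - F‖ ^ 2 ≤ s := by
    intro h hh
    refine le_trans (le_of_eq ?_) (hs h hh)
    rw [← real_inner_self_eq_norm_sq, L2_inner]
    refine integral_congr_ae ?_
    filter_upwards [Lp.coeFn_sub (L2R ν h F) F, hRF h, hFc] with U h1 h2 h3
    rw [h1, Pi.sub_apply, h2, h3, sq]
  obtain ⟨g, hg, hinv, hle⟩ := chain (L2R ν) K n hK0 hKn T hT hst F hnorm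
  obtain ⟨m, hm⟩ : ∃ m : ℝ, m = ∫ U, f U ∂ν := ⟨_, rfl⟩
  -- linear functionals constant on the orbit
  have hconst : ∀ (φ : Lp ℝ 2 ν) (c : ℝ), (∀ V, inner ℝ φ (L2R ν V F) = c) →
      inner ℝ φ g = c := by
    intro φ c hφ
    have hcl : IsClosed {x : Lp ℝ 2 ν | inner ℝ φ x = c} :=
      isClosed_eq (by fun_prop) continuous_const
    have hcv : Convex ℝ {x : Lp ℝ 2 ν | inner ℝ φ x = c} := by
      intro x hx y hy a b _ _ hab
      change inner ℝ φ (a • x + b • y) = c
      have hx' : inner ℝ φ x = c := hx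
      have hy' : inner ℝ φ y = c := hy
      rw [inner_add_right, real_inner_smul_right, real_inner_smul_right, hx', hy', ← add_mul, hab,
        one_mul]
    have hsub : hull (L2R ν) ⊤ F ⊆ {x : Lp ℝ 2 ν | inner ℝ φ x = c} := by
      unfold hull
      refine closure_minimal (convexHull_min ?_ hcv) hcl
      rintro _ ⟨V, _, rfl⟩
      exact hφ V
    exact hsub hg
  -- the integral of `g`
  have hone : MemLp (fun _ : G => (1 : ℝ)) 2 ν := memLp_const 1
  have hgm : ∫ U, g U ∂ν = m := by
    have h1 := hconst (hone.toLp _) m (fun V => by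
      rw [L2_inner, hm, ← integral_mul_right_eq_self f V]
      refine integral_congr_ae ?_
      filter_upwards [hone.coeFn_toLp, hRF V] with U h1 h2
      rw [h1, h2, one_mul])
    rw [← h1, L2_inner]
    refine integral_congr_ae ?_
    filter_upwards [hone.coeFn_toLp] with U h1
    rw [h1, one_mul]
  have hgg : inner ℝ g g = inner ℝ g F := hconst g _ (fun V => by
    have h1 := (L2R ν V).inner_map_map g F
    rw [hinv V] at h1
    exact h1)
  have hgF : inner ℝ g F = m * m := by
    have h1 : ∀ V, ∫ U, g U * f (U * V) ∂ν = inner ℝ g F := by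
      intro V
      have h1 := (L2R ν V).inner_map_map g F
      rw [hinv V] at h1
      rw [← h1, L2_inner]
      refine integral_congr_ae ?_
      filter_upwards [hRF V] with U h2
      rw [h2]
    have h2 : ∫ V, ∫ U, g U * f (U * V) ∂ν ∂ν = inner ℝ g F := by
      simp only [h1]
      rw [integral_const]
      simp
    have hgi : Integrable (g : G → ℝ) ν := (Lp.memLp g).integrable (by norm_num)
    have hprod : Integrable (fun p : G × G => g p.2 * f (p.2 * p.1)) (ν.prod ν) := by
      have h3 : Integrable (fun p : G × G => g p.2) (ν.prod ν) := hgi.comp_snd ν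
      refine h3.mul_bdd (c := C) ?_ ?_
      · exact (hf.comp (continuous_snd.mul continuous_fst)).aestronglyMeasurable
      · exact Filter.Eventually.of_forall fun p => hC _
    rw [integral_integral_swap hprod] at h2
    rw [← h2]
    have h4 : ∀ U, ∫ V, g U * f (U * V) ∂ν = g U * m := by
      intro U
      rw [integral_const_mul, integral_mul_left_eq_self f U, hm]
    simp only [h4]
    rw [integral_mul_const, hgm]
  -- conclusion
  have hFn : ‖F‖ ^ 2 = ∫ U, f U ^ 2 ∂ν := by
    rw [← real_inner_self_eq_norm_sq, L2_inner]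
    refine integral_congr_ae ?_
    filter_upwards [hFc] with U h1
    rw [h1, sq]
  have hgn : ‖g‖ ^ 2 = m * m := by
    rw [← real_inner_self_eq_norm_sq, hgg, hgF]
  have hvar : ∫ U, (f U - m) ^ 2 ∂ν = ∫ U, f U ^ 2 ∂ν - m * m := by
    have e : ∀ U, (f U - m) ^ 2 = f U ^ 2 - 2 * m * f U + m ^ 2 := fun U => by ring
    simp only [e]
    have i1 : Integrable (fun U => f U ^ 2 - 2 * m * f U) ν := hf2.sub (hfi.const_mul _)
    have i2 : Integrable (fun U => 2 * m * f U) ν := hfi.const_mul _
    rw [integral_add i1 (integrable_const _), integral_sub hf2 i2, integral_const_mul, ← hm,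
      integral_const]
    simp
    ring
  rw [← hm, hvar]
  rw [hFn, hgn] at hle
  linarith

end Vale.Agent.P166V
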