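import Vale.Agent.Lib.P166U.E
import Vale.Agent.Lib.P166V.L2
import Vale.Agent.Lib.P166V.EstA
import Vale.Agent.Lib.P166V.EstB

/-!
# P166V: self-averaging of the pressure
-/

namespace Vale.Agent.P166V

open MeasureTheory Filter Topology Matrix Vale.Agent.P166U

/-- continuity of the two Gibbs averages -/
theorem cont_en_sub {N : ℕ} (β : ℝ) (lam : Fin N → ℝ) (n σ : Fin N → ℝ) :
    Continuous fun U : Matrix (Fin N) (Fin N) ℝ =>
      (en β lam U σ - en β lam (U * refl n) σ) ^ 2 := by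
  refine ((continuous_en β lam σ).sub ((continuous_en β lam σ).comp ?_)).pow 2
  exact continuous_id.mul continuous_const

theorem cont_mom {N : ℕ} (lam : Fin N → ℝ) (n σ : Fin N → ℝ) :
    Continuous fun U : Matrix (Fin N) (Fin N) ℝ =>
      (n ⬝ᵥ σ) ^ 2 * (n ⬝ᵥ Js lam U σ) ^ 2 := by
  unfold Js
  fun_prop

theorem gav_mono {N : ℕ} (β : ℝ) (lam : Fin N → ℝ) (U : Matrix (Fin N) (Fin N) ℝ)
    {φ ψ : (Fin N → ℝ) → ℝ} (h : ∀ σ, φ σ ≤ ψ σ) : gav β lam U φ ≤ gav β lam U ψ := by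
  unfold gav
  have hZ := Z_pos β lam U
  gcongr with σ _
  exact h σ

theorem gav_add {N : ℕ} (β : ℝ) (lam : Fin N → ℝ) (U : Matrix (Fin N) (Fin N) ℝ)
    (φ ψ : (Fin N → ℝ) → ℝ) (a b : ℝ) : gav β lam U (fun σ => a * (φ σ + b * ψ σ)) =
      a * (gav β lam U φ + b * gav β lam U ψ) := by
  unfold gav
  rw [← mul_div_assoc, ← add_div, ← mul_div_assoc, Finset.mul_sum, ← Finset.sum_add_distrib,
    Finset.mul_sum]
  congr 1
  exact Finset.sum_congr rfl fun σ _ => by ring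

/-- one reflection -/
theorem refl_le {N : ℕ} [MeasurableSpace (orthogonalGroup (Fin N) ℝ)]
    [BorelSpace (orthogonalGroup (Fin N) ℝ)] (ν : Measure (orthogonalGroup (Fin N) ℝ))
    [IsProbabilityMeasure ν] [ν.IsMulLeftInvariant] {β : ℝ} (hβ : 0 ≤ β) (lam : Fin N → ℝ)
    {L : ℝ} (hL : ∀ i, |lam i| ≤ L) (h : orthogonalGroup (Fin N) ℝ) (hh : h ∈ RR N) :
    ∫ U : orthogonalGroup (Fin N) ℝ, (pressure β lam ((U * h : orthogonalGroup (Fin N) ℝ)) -
      pressure β lam U) ^ 2 ∂ν ≤ 96 * β ^ 2 * L ^ 2 / N ^ 2 := by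
  have := compact_O N
  have := right_inv ν
  rcases hh with rfl | ⟨n, hn, hh⟩
  · have h0 : (fun U : orthogonalGroup (Fin N) ℝ =>
        (pressure β lam ((U * 1 : orthogonalGroup (Fin N) ℝ)) - pressure β lam U) ^ 2) =
        fun _ => 0 := by
      funext U
      rw [mul_one, sub_self]
      ring
    rw [h0, integral_zero]
    positivity
  refine (jen ν hβ lam h n hn hh).trans ?_
  have h1 : ∫ U : orthogonalGroup (Fin N) ℝ,
      gav β lam U (fun σ => (en β lam U σ - en β lam ((U : Matrix (Fin N) (Fin N) ℝ) * refl n) σ) ^ 2)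
        ∂ν ≤ ∫ U : orthogonalGroup (Fin N) ℝ, gav β lam U (fun σ => 8 * β ^ 2 *
          (((n ⬝ᵥ σ) ^ 2 * (n ⬝ᵥ Js lam U σ) ^ 2) + L ^ 2 * (n ⬝ᵥ σ) ^ 4)) ∂ν := by
    refine integral_mono (gav_int ν β lam
      (fun U σ => (en β lam U σ - en β lam (U * refl n) σ) ^ 2) (cont_en_sub β lam n))
      (gav_int ν β lam (fun U σ => 8 * β ^ 2 *
          (((n ⬝ᵥ σ) ^ 2 * (n ⬝ᵥ Js lam U σ) ^ 2) + L ^ 2 * (n ⬝ᵥ σ) ^ 4)) fun σ => ?_)
      fun U => ?_
    · exact continuous_const.mul ((cont_mom lam n σ).add continuous_const)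
    · exact gav_mono β lam U fun σ => en_sq β lam hL U.2 n σ hn
  have h2 : ∫ U : orthogonalGroup (Fin N) ℝ, gav β lam U (fun σ => 8 * β ^ 2 *
          (((n ⬝ᵥ σ) ^ 2 * (n ⬝ᵥ Js lam U σ) ^ 2) + L ^ 2 * (n ⬝ᵥ σ) ^ 4)) ∂ν ≤
      8 * β ^ 2 * (3 * L ^ 2 + L ^ 2 * 3) := by
    have i1 : Integrable (fun U : orthogonalGroup (Fin N) ℝ =>
        gav β lam U (fun σ => (n ⬝ᵥ σ) ^ 2 * (n ⬝ᵥ Js lam U σ) ^ 2)) ν :=
      gav_int ν β lam (fun U σ => (n ⬝ᵥ σ) ^ 2 * (n ⬝ᵥ Js lam U σ) ^ 2) (cont_mom lam n)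
    have i2 : Integrable (fun U : orthogonalGroup (Fin N) ℝ =>
        gav β lam U (fun σ => (n ⬝ᵥ σ) ^ 4)) ν :=
      gav_int ν β lam (fun _ σ => (n ⬝ᵥ σ) ^ 4) fun σ => continuous_const
    have e : ∀ U : orthogonalGroup (Fin N) ℝ, gav β lam U (fun σ => 8 * β ^ 2 *
          (((n ⬝ᵥ σ) ^ 2 * (n ⬝ᵥ Js lam U σ) ^ 2) + L ^ 2 * (n ⬝ᵥ σ) ^ 4)) =
        8 * β ^ 2 * (gav β lam U (fun σ => (n ⬝ᵥ σ) ^ 2 * (n ⬝ᵥ Js lam U σ) ^ 2) +
          L ^ 2 * gav β lam U (fun σ => (n ⬝ᵥ σ) ^ 4)) := fun U => gav_add β lam U _ _ _ _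
    simp only [e]
    rw [integral_const_mul, integral_add i1 (i2.const_mul _), integral_const_mul]
    have m1 := mom22 ν β lam hL n hn
    have m2 := mom4 ν β lam n hn
    have b0 : (0 : ℝ) ≤ 8 * β ^ 2 := by positivity
    have l0 : (0 : ℝ) ≤ L ^ 2 := by positivity
    exact mul_le_mul_of_nonneg_left (add_le_add m1 (mul_le_mul_of_nonneg_left m2 l0)) b0
  have h3 : (0 : ℝ) ≤ 2 / (N : ℝ) ^ 2 := by positivity
  refine (mul_le_mul_of_nonneg_left (h1.trans h2) h3).trans (le_of_eq ?_)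
  ring

/-- variance bound -/
theorem var_pressure {N : ℕ} [MeasurableSpace (orthogonalGroup (Fin N) ℝ)]
    [BorelSpace (orthogonalGroup (Fin N) ℝ)] (ν : Measure (orthogonalGroup (Fin N) ℝ))
    [IsProbabilityMeasure ν] [ν.IsMulLeftInvariant] {β : ℝ} (hβ : 0 ≤ β) (lam : Fin N → ℝ)
    {L : ℝ} (hL : ∀ i, |lam i| ≤ L) :
    ∫ U : orthogonalGroup (Fin N) ℝ, (pressure β lam U -
      ∫ U' : orthogonalGroup (Fin N) ℝ, pressure β lam U' ∂ν) ^ 2 ∂ν ≤
        48 * β ^ 2 * L ^ 2 / N := by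
  have := compact_O N
  have := topgrp_O N
  have := right_inv ν
  have : SecondCountableTopology (Matrix (Fin N) (Fin N) ℝ) :=
    inferInstanceAs (SecondCountableTopology (Fin N → Fin N → ℝ))
  have : SecondCountableTopology (orthogonalGroup (Fin N) ℝ) :=
    TopologicalSpace.Subtype.secondCountableTopology _
  have h1 := var_le ν (KK N) N (KK_zero N) (KK_top N) (RR N) (fun W h hh => RR_conj W h hh)
    (fun k hk V hV => KK_step hk V hV) (fun U : orthogonalGroup (Fin N) ℝ => pressure β lam U)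
    ((continuous_pressure β lam).comp continuous_subtype_val)
    (s := 96 * β ^ 2 * L ^ 2 / N ^ 2) (fun h hh => refl_le ν hβ lam hL h hh)
  refine h1.trans (le_of_eq ?_)
  rcases Nat.eq_zero_or_pos N with hN | hN
  · subst hN
    simp
  · have : (N : ℝ) ≠ 0 := by positivity
    field_simp
    ring

end Vale.Agent.P166V
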