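import Vale.Agent.Lib.P166V.Defs
import Vale.Agent.Lib.P166V.Main

/-!
# P166V: the statement of the hand-in, deduced from the variance bound and universality
-/

namespace Vale.Agent.P166V

open MeasureTheory Filter Topology Matrix ProbabilityTheory

theorem Admissible.spectra {μ : Measure ℝ} {lam : ∀ N : ℕ, Fin N → ℝ} (h : Admissible μ lam) :
    P166U.Spectra μ lam := by
  refine ⟨fun g hg hb => ?_, h.largest, h.smallest⟩
  obtain ⟨C, hC⟩ := hb
  have h1 := h.weak (BoundedContinuousFunction.ofNormedAddCommGroup g hg C hC)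
  refine h1.congr fun N => ?_
  rw [one_div, div_eq_inv_mul]
  rfl

theorem cube_eq (N : ℕ) : P166U.cube N =
    Finset.univ.image (fun (s : Fin N → ℤˣ) (i : Fin N) => ((s i : ℤ) : ℝ)) := by
  ext σ
  unfold P166U.cube
  rw [Fintype.mem_piFinset, Finset.mem_image]
  constructor
  · intro h
    refine ⟨fun i => if σ i = 1 then 1 else -1, Finset.mem_univ _, ?_⟩
    funext i
    rcases Finset.mem_insert.1 (h i) with h1 | h1
    · simp only [h1]
      norm_num
    · simp only [Finset.mem_singleton.1 h1]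
      norm_num
  · rintro ⟨s, -, rfl⟩ i
    rcases Int.units_eq_one_or (s i) with h1 | h1
    · simp [h1]
    · simp [h1]

theorem inj_e (N : ℕ) : Function.Injective
    (fun (s : Fin N → ℤˣ) (i : Fin N) => ((s i : ℤ) : ℝ)) := by
  intro s t h
  funext i
  have h1 := congrFun h i
  simp only [Int.cast_inj] at h1
  exact Units.ext h1

theorem bridge {N : ℕ} (β : ℝ) (lam : Fin N → ℝ) (U : Matrix (Fin N) (Fin N) ℝ) :
    isingPressure β (Uᵀ * diagonal lam * U) = P166U.pressure β lam U := by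
  unfold isingPressure P166U.pressure
  have h := cube_eq N
  unfold P166U.cube at h
  rw [h, Finset.sum_image fun _ _ _ _ e => inj_e N e, one_div, one_div]
  congr 3
  refine Finset.sum_congr rfl fun s _ => ?_
  congr 2
  rw [dotProduct]
  refine Finset.sum_congr rfl fun i _ => ?_
  rw [mulVec, dotProduct, Finset.mul_sum]
  exact Finset.sum_congr rfl fun j _ => by ring

section

variable [∀ N : ℕ, MeasurableSpace (orthogonalGroup (Fin N) ℝ)]
    [∀ N : ℕ, BorelSpace (orthogonalGroup (Fin N) ℝ)]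

/-- deterministic array, `L²` -/
theorem l2_lim (ν : ∀ N : ℕ, Measure (orthogonalGroup (Fin N) ℝ)) [∀ N, IsProbabilityMeasure (ν N)]
    [∀ N, (ν N).IsMulLeftInvariant] {μ : Measure ℝ} [IsProbabilityMeasure μ]
    {lam lam' : ∀ N : ℕ, Fin N → ℝ} (h : P166U.Spectra μ lam) (h' : P166U.Spectra μ lam')
    {β : ℝ} (hβ : 0 ≤ β) : Tendsto (fun N : ℕ => ∫ U : orthogonalGroup (Fin N) ℝ,
      (P166U.pressure β (lam' N) U -
        ∫ V : orthogonalGroup (Fin N) ℝ, P166U.pressure β (lam N) V ∂ν N) ^ 2 ∂ν N)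
      atTop (𝓝 0) := by
  obtain ⟨ε, hε, hc⟩ := P166U.law_close ν h' h hβ
  set L := |sSup μ.support + 1| + |sInf μ.support - 1| with hL
  have e1 := P166U.ev_le h' (c := sSup μ.support + 1) (by linarith)
  have e2 := P166U.ev_ge h' (c := sInf μ.support - 1) (by linarith)
  have hlim : Tendsto (fun N : ℕ => 48 * β ^ 2 * L ^ 2 / N + ε N ^ 2) atTop (𝓝 0) := by
    have h1 : Tendsto (fun N : ℕ => 48 * β ^ 2 * L ^ 2 / (N : ℝ)) atTop (𝓝 0) :=
      tendsto_const_nhds.div_atTop tendsto_natCast_atTop_atTop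
    have h2 := h1.add (hε.pow 2)
    simpa using h2
  refine squeeze_zero' (Eventually.of_forall fun N => integral_nonneg fun U => sq_nonneg _) ?_ hlim
  filter_upwards [e1, e2] with N n1 n2
  have hb : ∀ i, |lam' N i| ≤ L := by
    intro i
    have a1 := n1 i
    have a2 := n2 i
    have a3 := le_abs_self (sSup μ.support + 1)
    have a4 := neg_abs_le (sInf μ.support - 1)
    have a5 := abs_nonneg (sSup μ.support + 1)
    have a6 := abs_nonneg (sInf μ.support - 1)
    rw [abs_le, hL]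
    constructor <;> linarith
  have hv := var_pressure (ν N) hβ (lam' N) hb
  set m := ∫ V : orthogonalGroup (Fin N) ℝ, P166U.pressure β (lam' N) V ∂ν N with hm
  set m0 := ∫ V : orthogonalGroup (Fin N) ℝ, P166U.pressure β (lam N) V ∂ν N with hm0
  have hi := P166U.integrable_pressure (ν N) hβ (lam' N)
  have hi2 : Integrable (fun U : orthogonalGroup (Fin N) ℝ =>
      (P166U.pressure β (lam' N) U - m) ^ 2) (ν N) := by
    obtain ⟨C, hC⟩ := P166U.pressure_bdd hβ (lam' N)
    refine P166U.integrable_of (ν N) (F := fun U => (P166U.pressure β (lam' N) U - m) ^ 2)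
      (((P166U.continuous_pressure β (lam' N)).sub continuous_const).pow 2)
      (C := (C + |m|) ^ 2) fun U hU => ?_
    rw [abs_of_nonneg (sq_nonneg _)]
    have h1 : |P166U.pressure β (lam' N) U - m| ≤ C + |m| :=
      (abs_sub _ _).trans (add_le_add (hC U hU) le_rfl)
    exact sq_le_sq' (by linarith [neg_abs_le (P166U.pressure β (lam' N) U - m)])
      (le_of_abs_le h1)
  have h1 : ∫ U : orthogonalGroup (Fin N) ℝ, (P166U.pressure β (lam' N) U - m0) ^ 2 ∂ν N =
      ∫ U : orthogonalGroup (Fin N) ℝ, (P166U.pressure β (lam' N) U - m) ^ 2 ∂ν N +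
        (m - m0) ^ 2 := by
    have h2 : ∀ U : orthogonalGroup (Fin N) ℝ, (P166U.pressure β (lam' N) U - m0) ^ 2 =
        (P166U.pressure β (lam' N) U - m) ^ 2 + ((2 * (m - m0)) *
          (P166U.pressure β (lam' N) U - m) + (m - m0) ^ 2) := fun U => by ring
    have i3 : Integrable (fun U : orthogonalGroup (Fin N) ℝ => P166U.pressure β (lam' N) U - m)
        (ν N) := hi.sub (integrable_const m)
    have i4 : Integrable (fun U : orthogonalGroup (Fin N) ℝ =>
        (2 * (m - m0)) * (P166U.pressure β (lam' N) U - m)) (ν N) := i3.const_mul _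
    have i5 : Integrable (fun U : orthogonalGroup (Fin N) ℝ =>
        (2 * (m - m0)) * (P166U.pressure β (lam' N) U - m) + (m - m0) ^ 2) (ν N) :=
      i4.add (integrable_const _)
    simp only [h2]
    rw [integral_add hi2 i5, integral_add i4 (integrable_const _), integral_const_mul,
      integral_sub hi (integrable_const m), ← hm]
    simp
  rw [h1]
  have h3 := hc N (fun x => x) LipschitzWith.id
  have h4 : (m - m0) ^ 2 ≤ ε N ^ 2 := by
    rw [← sq_abs (m - m0)]
    have := abs_nonneg (m - m0)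
    exact pow_le_pow_left₀ this h3 2
  linarith

/-- deterministic array, in probability -/
theorem prob_lim (ν : ∀ N : ℕ, Measure (orthogonalGroup (Fin N) ℝ))
    [∀ N, IsProbabilityMeasure (ν N)]
    [∀ N, (ν N).IsMulLeftInvariant] {μ : Measure ℝ} [IsProbabilityMeasure μ]
    {lam lam' : ∀ N : ℕ, Fin N → ℝ} (h : P166U.Spectra μ lam) (h' : P166U.Spectra μ lam')
    {β : ℝ} (hβ : 0 ≤ β) {δ : ℝ} (hδ : 0 < δ) : Tendsto (fun N : ℕ => ν N
      {U : orthogonalGroup (Fin N) ℝ | δ ≤ |P166U.pressure β (lam' N) U -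
        ∫ V : orthogonalGroup (Fin N) ℝ, P166U.pressure β (lam N) V ∂ν N|}) atTop (𝓝 0) := by
  have h1 := (l2_lim ν h h' hβ).const_mul (δ ^ 2)⁻¹
  rw [mul_zero] at h1
  refine (ENNReal.tendsto_toReal_zero_iff (fun N => measure_ne_top _ _)).1 ?_
  refine squeeze_zero (fun N => ENNReal.toReal_nonneg) (fun N => ?_) h1
  set a := ∫ V : orthogonalGroup (Fin N) ℝ, P166U.pressure β (lam N) V ∂ν N with ha
  have hi2 : Integrable (fun U : orthogonalGroup (Fin N) ℝ =>
      (P166U.pressure β (lam' N) U - a) ^ 2) (ν N) := by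
    obtain ⟨C, hC⟩ := P166U.pressure_bdd hβ (lam' N)
    refine P166U.integrable_of (ν N) (F := fun U => (P166U.pressure β (lam' N) U - a) ^ 2)
      (((P166U.continuous_pressure β (lam' N)).sub continuous_const).pow 2)
      (C := (C + |a|) ^ 2) fun U hU => ?_
    rw [abs_of_nonneg (sq_nonneg _)]
    have h1 : |P166U.pressure β (lam' N) U - a| ≤ C + |a| :=
      (abs_sub _ _).trans (add_le_add (hC U hU) le_rfl)
    exact sq_le_sq' (by linarith [neg_abs_le (P166U.pressure β (lam' N) U - a)])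
      (le_of_abs_le h1)
  have h2 := mul_meas_ge_le_integral_of_nonneg
    (Eventually.of_forall fun U => sq_nonneg _) hi2 (δ ^ 2)
  have h3 : {U : orthogonalGroup (Fin N) ℝ | δ ^ 2 ≤ (P166U.pressure β (lam' N) U - a) ^ 2} =
      {U : orthogonalGroup (Fin N) ℝ | δ ≤ |P166U.pressure β (lam' N) U - a|} := by
    ext U
    simp only [Set.mem_ofPred_eq]
    rw [← sq_abs (P166U.pressure β (lam' N) U - a)]
    exact pow_le_pow_iff_left₀ hδ.le (abs_nonneg _) two_ne_zero
  rw [h3] at h2
  have hd : 0 < δ ^ 2 := by positivity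
  rw [inv_mul_eq_div, le_div_iff₀ hd, mul_comm]
  exact h2

/-- random array, independent of the Haar matrix -/
theorem rand_lim (ν : ∀ N : ℕ, Measure (orthogonalGroup (Fin N) ℝ))
    [∀ N, IsProbabilityMeasure (ν N)]
    [∀ N, (ν N).IsMulLeftInvariant] {μ : Measure ℝ} [IsProbabilityMeasure μ]
    {lam : ∀ N : ℕ, Fin N → ℝ} (h : P166U.Spectra μ lam) {β : ℝ} (hβ : 0 ≤ β)
    {Ω : Type} [MeasurableSpace Ω] (P : Measure Ω) [IsProbabilityMeasure P]
    (X : ∀ N : ℕ, Ω → Fin N → ℝ) (U : ∀ N : ℕ, Ω → orthogonalGroup (Fin N) ℝ)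
    (hX : ∀ N, Measurable (X N)) (hU : ∀ N, Measurable (U N)) (hlaw : ∀ N, P.map (U N) = ν N)
    (hind : ∀ N, IndepFun (X N) (U N) P)
    (hS : ∀ᵐ ω ∂P, P166U.Spectra μ fun N => X N ω) {δ : ℝ} (hδ : 0 < δ) :
    Tendsto (fun N : ℕ => P {ω | δ ≤ |P166U.pressure β (X N ω) (U N ω) -
        ∫ V : orthogonalGroup (Fin N) ℝ, P166U.pressure β (lam N) V ∂ν N|}) atTop (𝓝 0) := by
  set a : ℕ → ℝ := fun N => ∫ V : orthogonalGroup (Fin N) ℝ, P166U.pressure β (lam N) V ∂ν N
    with ha
  have hB : ∀ N, MeasurableSet {q : (Fin N → ℝ) × orthogonalGroup (Fin N) ℝ |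
      δ ≤ |P166U.pressure β q.1 q.2 - a N|} := fun N =>
    measurableSet_le measurable_const
      ((P166U.continuous_uncurry N β).measurable.sub measurable_const).abs
  have h1 : ∀ N, P {ω | δ ≤ |P166U.pressure β (X N ω) (U N ω) - a N|} =
      ∫⁻ ω, ν N {V | δ ≤ |P166U.pressure β (X N ω) V - a N|} ∂P := by
    intro N
    have h2 := (indepFun_iff_map_prod_eq_prod_map_map (hX N).aemeasurable
      (hU N).aemeasurable).1 (hind N)
    have h3 : P {ω | δ ≤ |P166U.pressure β (X N ω) (U N ω) - a N|} =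
        (P.map fun ω => (X N ω, U N ω)) {q : (Fin N → ℝ) × orthogonalGroup (Fin N) ℝ |
          δ ≤ |P166U.pressure β q.1 q.2 - a N|} := by
      rw [Measure.map_apply ((hX N).prodMk (hU N)) (hB N)]
      rfl
    have : IsProbabilityMeasure (P.map (X N)) :=
      Measure.isProbabilityMeasure_map (hX N).aemeasurable
    rw [h3, h2, hlaw N, Measure.prod_apply (hB N), lintegral_map
      (measurable_measure_prodMk_left (hB N)) (hX N)]
    rfl
  have h4 : Tendsto (fun N => ∫⁻ ω, ν N {V | δ ≤ |P166U.pressure β (X N ω) V - a N|} ∂P) atTop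
      (𝓝 (∫⁻ _ω, 0 ∂P)) := by
    refine tendsto_lintegral_of_dominated_convergence (fun _ => 1) (fun N => ?_) (fun N => ?_)
      (by simp) ?_
    · exact (measurable_measure_prodMk_left (hB N)).comp (hX N)
    · exact Eventually.of_forall fun ω => prob_le_one
    · filter_upwards [hS] with ω hω
      exact prob_lim ν h hω hβ hδ
  rw [lintegral_zero] at h4
  exact h4.congr fun N => (h1 N).symm

end

theorem bridge' {N : ℕ} (β : ℝ) (lam : Fin N → ℝ) (U : orthogonalGroup (Fin N) ℝ) :
    isingPressure β (coupling lam U) = P166U.pressure β lam U := bridge β lam U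

/-- the statement -/
theorem main [∀ N : ℕ, MeasurableSpace (orthogonalGroup (Fin N) ℝ)]
    [∀ N : ℕ, BorelSpace (orthogonalGroup (Fin N) ℝ)]
    (haar : ∀ N : ℕ, Measure (orthogonalGroup (Fin N) ℝ)) [∀ N, IsProbabilityMeasure (haar N)]
    [∀ N, (haar N).IsMulLeftInvariant] :
    (∀ β : ℝ, 0 ≤ β → ∀ (N : ℕ) (lam : Fin N → ℝ) (L : ℝ), (∀ i, |lam i| ≤ L) →
      Var[fun U => isingPressure β (coupling lam U); haar N] ≤ 48 * β ^ 2 * L ^ 2 / N) ∧
    ∀ μ : Measure ℝ, IsProbabilityMeasure μ → IsCompact μ.support →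
      ∃ a : ℝ → ℕ → ℝ, ∀ β : ℝ, 0 ≤ β →
      ∀ (Ω : Type) [MeasurableSpace Ω] (P : Measure Ω) [IsProbabilityMeasure P]
        (X : ∀ N : ℕ, Ω → Fin N → ℝ) (U : ∀ N : ℕ, Ω → orthogonalGroup (Fin N) ℝ),
        (∀ N, Measurable (X N)) → (∀ N, Measurable (U N)) → (∀ N, P.map (U N) = haar N) →
        (∀ N, IndepFun (X N) (U N) P) → (∀ᵐ ω ∂P, Admissible μ fun N => X N ω) →
        TendstoInMeasure P (fun N ω => isingPressure β (coupling (X N ω) (U N ω)) - a β N)
          atTop (fun _ => 0) := by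
  refine ⟨fun β hβ N lam L hL => ?_, fun μ hμ _ => ?_⟩
  · have hc : Continuous fun U : orthogonalGroup (Fin N) ℝ => P166U.pressure β lam U :=
      (P166U.continuous_pressure β lam).comp continuous_subtype_val
    simp only [bridge']
    rw [variance_eq_integral hc.measurable.aemeasurable]
    exact var_pressure (haar N) hβ lam hL
  · by_cases hex : ∃ lam : ∀ N : ℕ, Fin N → ℝ, P166U.Spectra μ lam
    · obtain ⟨lam, hlam⟩ := hex
      refine ⟨fun β N => ∫ V : orthogonalGroup (Fin N) ℝ, P166U.pressure β (lam N) V ∂haar N,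
        fun β hβ => ?_⟩
      intro Ω _ P _ X U hX hU hlaw hind hS
      rw [tendstoInMeasure_iff_norm]
      intro δ hδ
      have hS' : ∀ᵐ ω ∂P, P166U.Spectra μ fun N => X N ω := hS.mono fun ω hω => hω.spectra
      refine (rand_lim haar hlam hβ P X U hX hU hlaw hind hS' hδ).congr fun N => ?_
      simp only [bridge', sub_zero, Real.norm_eq_abs]
    · refine ⟨fun _ _ => 0, fun β hβ => ?_⟩
      intro Ω _ P _ X U hX hU hlaw hind hS
      exfalso
      obtain ⟨ω, hω⟩ := hS.exists
      exact hex ⟨_, hω.spectra⟩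

end Vale.Agent.P166V
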