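import Vale.Agent.Lib.P166V.EstDefs

/-!
# P166V: Gibbs averages are integrable
-/

namespace Vale.Agent.P166V

open MeasureTheory Matrix Vale.Agent.P166U

/-- integrability of the Gibbs averages (continuous functions on a compact space) -/
theorem gav_int {N : ℕ} [MeasurableSpace (orthogonalGroup (Fin N) ℝ)]
    [BorelSpace (orthogonalGroup (Fin N) ℝ)] [CompactSpace (orthogonalGroup (Fin N) ℝ)]
    (ν : Measure (orthogonalGroup (Fin N) ℝ))
    [IsProbabilityMeasure ν] (β : ℝ) (lam : Fin N → ℝ)
    (F : Matrix (Fin N) (Fin N) ℝ → (Fin N → ℝ) → ℝ) (hF : ∀ σ, Continuous fun U => F U σ) :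
    Integrable (fun U : orthogonalGroup (Fin N) ℝ => gav β lam U (F U)) ν := by
  have h1 : Continuous fun U : Matrix (Fin N) (Fin N) ℝ => gav β lam U (F U) := by
    unfold gav
    refine Continuous.div ?_ (continuous_Z β lam) fun U => (Z_pos β lam U).ne'
    exact continuous_finsetSum _ fun σ _ => (continuous_en β lam σ).rexp.mul (hF σ)
  have h2 : Continuous fun U : orthogonalGroup (Fin N) ℝ => gav β lam U (F U) :=
    h1.comp continuous_subtype_val
  obtain ⟨C, hC⟩ := isCompact_univ.exists_bound_of_continuousOn h2.continuousOn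
  refine Integrable.of_bound h2.aestronglyMeasurable C ?_
  filter_upwards with U
  exact hC U (Set.mem_univ U)

end Vale.Agent.P166V
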