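import Mathlib

/-!
# P166V: averaging over a chain of groups of isometries of a Hilbert space
-/

namespace Vale.Agent.P166V

open scoped RealInnerProductSpace

variable {H : Type*} [NormedAddCommGroup H] [InnerProductSpace ℝ H]

/-- closed convex hull of an orbit -/
def hull {G : Type*} [Group G] (R : G →* (H ≃ₗᵢ[ℝ] H)) (K : Subgroup G) (g : H) : Set H :=
  closure (convexHull ℝ ((fun V => R V g) '' (K : Set G)))

theorem hull_subset {G : Type*} [Group G] (R : G →* (H ≃ₗᵢ[ℝ] H)) (K : Subgroup G) (g : H)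
    {A : Set H} (hA : IsClosed A) (hc : Convex ℝ A) (h : ∀ V ∈ K, R V g ∈ A) :
    hull R K g ⊆ A := by
  refine closure_minimal (convexHull_min ?_ hc) hA
  rintro _ ⟨V, hV, rfl⟩
  exact h V hV

theorem mem_hull {G : Type*} [Group G] (R : G →* (H ≃ₗᵢ[ℝ] H)) (K : Subgroup G) (g : H)
    {V : G} (hV : V ∈ K) : R V g ∈ hull R K g :=
  subset_closure (subset_convexHull ℝ _ ⟨V, hV, rfl⟩)

theorem hull_convex {G : Type*} [Group G] (R : G →* (H ≃ₗᵢ[ℝ] H)) (K : Subgroup G) (g : H) :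
    Convex ℝ (hull R K g) := (convex_convexHull ℝ _).closure

theorem hull_inv {G : Type*} [Group G] (R : G →* (H ≃ₗᵢ[ℝ] H)) (K : Subgroup G) (g : H)
    {V : G} (hV : V ∈ K) {w : H} (hw : w ∈ hull R K g) : R V w ∈ hull R K g := by
  have h1 : hull R K g ⊆ (R V) ⁻¹' (hull R K g) := by
    refine hull_subset R K g (isClosed_closure.preimage (R V).continuous) ?_ fun W hW => ?_
    · exact (hull_convex R K g).linear_preimage (R V).toLinearEquiv.toLinearMap
    · rw [Set.mem_preimage]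
      have h2 : R V (R W g) = R (V * W) g := by rw [map_mul]; rfl
      rw [h2]
      exact mem_hull R K g (K.mul_mem hV hW)
  exact h1 hw

/-- one step: the element of smallest norm of the closed convex hull of the orbit -/
theorem step [CompleteSpace H] {G : Type*} [Group G] (R : G →* (H ≃ₗᵢ[ℝ] H)) (K : Subgroup G)
    (g : H) {s : ℝ} (hs : ∀ V ∈ K, ‖R V g - g‖ ^ 2 ≤ s) :
    ∃ g' ∈ hull R K g, (∀ V ∈ K, R V g' = g') ∧ ‖g‖ ^ 2 - s / 2 ≤ ‖g'‖ ^ 2 := by
  have hne : (hull R K g).Nonempty := ⟨_, mem_hull R K g K.one_mem⟩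
  have hcomp : IsComplete (hull R K g) := IsClosed.isComplete isClosed_closure
  obtain ⟨v, hv, hmin⟩ := exists_norm_eq_iInf_of_complete_convex hne hcomp
    (hull_convex R K g) (0 : H)
  have h1 := (norm_eq_iInf_iff_real_inner_le_zero (hull_convex R K g) hv).1 hmin
  have h2 : ∀ w ∈ hull R K g, ‖v‖ ^ 2 ≤ ⟪v, w⟫ := by
    intro w hw
    have h3 := h1 w hw
    rw [zero_sub, inner_neg_left, inner_sub_right, real_inner_self_eq_norm_sq] at h3
    linarith
  have hinv : ∀ V ∈ K, R V v = v := by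
    intro V hV
    have h3 := h2 _ (hull_inv R K g hV hv)
    have h4 : ‖R V v - v‖ ^ 2 = 2 * ‖v‖ ^ 2 - 2 * ⟪v, R V v⟫ := by
      rw [norm_sub_sq_real, (R V).norm_map, real_inner_comm]
      ring
    have h5 : ‖R V v - v‖ ^ 2 ≤ 0 := by rw [h4]; linarith
    have h6 : ‖R V v - v‖ = 0 := by
      have := sq_nonneg ‖R V v - v‖
      exact pow_eq_zero_iff two_ne_zero |>.1 (le_antisymm h5 this)
    exact sub_eq_zero.1 (norm_eq_zero.1 h6)
  refine ⟨v, hv, hinv, ?_⟩
  have h3 : hull R K g ⊆ {w | ‖g‖ ^ 2 - s / 2 ≤ ⟪g, w⟫} := by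
    refine hull_subset R K g (isClosed_le continuous_const (by fun_prop)) ?_ fun V hV => ?_
    · exact convex_halfSpace_ge (innerSL ℝ g).toLinearMap.isLinear _
    · have h4 : ‖R V g - g‖ ^ 2 = 2 * ‖g‖ ^ 2 - 2 * ⟪g, R V g⟫ := by
        rw [norm_sub_sq_real, (R V).norm_map, real_inner_comm]
        ring
      have h5 := hs V hV
      rw [h4] at h5
      change ‖g‖ ^ 2 - s / 2 ≤ ⟪g, R V g⟫
      linarith
  have h4 : hull R K g ⊆ {w | ⟪v, w⟫ = ⟪v, g⟫} := by
    refine hull_subset R K g (isClosed_eq (by fun_prop) continuous_const) ?_ fun V hV => ?_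
    · exact convex_hyperplane (innerSL ℝ v).toLinearMap.isLinear _
    · change ⟪v, R V g⟫ = ⟪v, g⟫
      conv_lhs => rw [← hinv V hV]
      exact (R V).inner_map_map v g
  have h5 : ‖g‖ ^ 2 - s / 2 ≤ ⟪g, v⟫ := h3 hv
  have h6 : ⟪v, v⟫ = ⟪v, g⟫ := h4 hv
  rw [← real_inner_self_eq_norm_sq v, h6, real_inner_comm]
  exact h5

/-- the chain -/
theorem chain [CompleteSpace H] {G : Type*} [Group G] (R : G →* (H ≃ₗᵢ[ℝ] H))
    (K : ℕ → Subgroup G) (n : ℕ)
    (hK0 : K 0 = ⊤) (hKn : K n = ⊥) (T : Set G) (hT : ∀ W : G, ∀ h ∈ T, W⁻¹ * h * W ∈ T)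
    (hst : ∀ k < n, ∀ V ∈ K k, ∃ h ∈ T, h⁻¹ * V ∈ K (k + 1))
    (f : H) {s : ℝ} (hs : ∀ h ∈ T, ‖R h f - f‖ ^ 2 ≤ s) :
    ∃ g ∈ hull R ⊤ f, (∀ V, R V g = g) ∧ ‖f‖ ^ 2 - n * s / 2 ≤ ‖g‖ ^ 2 := by
  have hT' : ∀ h ∈ T, ∀ g ∈ hull R ⊤ f, ‖R h g - g‖ ^ 2 ≤ s := by
    intro h hh g hg
    have hs0 : 0 ≤ s := (sq_nonneg _).trans (hs h hh)
    have h1 : hull R ⊤ f ⊆ (((R h).toLinearEquiv.toLinearMap : H →ₗ[ℝ] H) -
        (LinearMap.id : H →ₗ[ℝ] H)) ⁻¹' (Metric.closedBall (0 : H) (Real.sqrt s)) := by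
      refine hull_subset R ⊤ f ?_ ?_ fun W _ => ?_
      · refine Metric.isClosed_closedBall.preimage ?_
        exact (R h).continuous.sub continuous_id
      · exact (convex_closedBall (0 : H) (Real.sqrt s)).linear_preimage _
      · rw [Set.mem_preimage, mem_closedBall_zero_iff]
        change ‖R h (R W f) - R W f‖ ≤ _
        have h2 : R h (R W f) = R W (R (W⁻¹ * h * W) f) := by
          have h3 : R h (R W f) = R (h * W) f := by rw [map_mul]; rfl
          have h4 : R W (R (W⁻¹ * h * W) f) = R (W * (W⁻¹ * h * W)) f := by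
            rw [map_mul R W]; rfl
          rw [h3, h4]
          congr 2
          group
        rw [h2, ← map_sub, (R W).norm_map]
        refine Real.le_sqrt_of_sq_le ?_
        exact hs _ (hT W h hh)
    have h2 := h1 hg
    rw [Set.mem_preimage, mem_closedBall_zero_iff] at h2
    have h3 : ‖R h g - g‖ ≤ Real.sqrt s := h2
    calc ‖R h g - g‖ ^ 2 ≤ Real.sqrt s ^ 2 := by
          have := norm_nonneg (R h g - g)
          gcongr
      _ = s := Real.sq_sqrt hs0
  have key : ∀ j ≤ n, ∃ g ∈ hull R ⊤ f, (∀ V ∈ K (n - j), R V g = g) ∧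
      ‖f‖ ^ 2 - j * s / 2 ≤ ‖g‖ ^ 2 := by
    intro j
    induction j with
    | zero =>
      intro _
      refine ⟨f, ?_, ?_, ?_⟩
      · have := mem_hull R ⊤ f (Subgroup.mem_top (1 : G))
        rw [map_one] at this
        exact this
      · intro V hV
        rw [Nat.sub_zero, hKn, Subgroup.mem_bot] at hV
        rw [hV, map_one]
        rfl
      · simp
    | succ j ih =>
      intro hj
      obtain ⟨g, hg, hginv, hgn⟩ := ih (by omega)
      have hk : n - (j + 1) + 1 = n - j := by omega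
      have hs' : ∀ V ∈ K (n - (j + 1)), ‖R V g - g‖ ^ 2 ≤ s := by
        intro V hV
        obtain ⟨h, hh, hhV⟩ := hst (n - (j + 1)) (by omega) V hV
        rw [hk] at hhV
        have h1 : R V g = R h g := by
          have h2 : R h (R (h⁻¹ * V) g) = R V g := by
            have : R h (R (h⁻¹ * V) g) = R (h * (h⁻¹ * V)) g := by
              rw [map_mul R h]; rfl
            rw [this, mul_inv_cancel_left]
          rw [← h2, hginv _ hhV]
        rw [h1]
        exact hT' h hh g hg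
      obtain ⟨g', hg', hg'inv, hg'n⟩ := step R (K (n - (j + 1))) g hs'
      refine ⟨g', ?_, hg'inv, ?_⟩
      · refine (hull_subset R (K (n - (j + 1))) g isClosed_closure (hull_convex R ⊤ f)
          fun V _ => ?_) hg'
        exact hull_inv R ⊤ f (Subgroup.mem_top V) hg
      · push_cast
        linarith
  obtain ⟨g, hg, hginv, hgn⟩ := key n le_rfl
  refine ⟨g, hg, fun V => hginv V ?_, hgn⟩
  rw [Nat.sub_self, hK0]
  exact Subgroup.mem_top V

end Vale.Agent.P166V
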